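import Mathlib

namespace Vale.Agent.P036

open Finset

/-- sums of `R` products of one-variable functions -/
def Rk {κ A : Type} [CommRing A] (R : ℕ) (F : κ → κ → κ → A) : Prop :=
  ∃ f g h : Fin R → κ → A, ∀ a b c, F a b c = ∑ i, f i a * g i b * h i c

section
variable {κ A : Type} [CommRing A]

lemma Rk.of_fintype {ι : Type} [Fintype ι] {R : ℕ} (hR : Fintype.card ι = R) {F : κ → κ → κ → A}
    (f g h : ι → κ → A) (hF : ∀ a b c, F a b c = ∑ i, f i a * g i b * h i c) : Rk R F := by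
  let e := Fintype.equivFinOfCardEq hR
  refine ⟨fun i => f (e.symm i), fun i => g (e.symm i), fun i => h (e.symm i), fun a b c => ?_⟩
  rw [hF]
  exact (Equiv.sum_comp e.symm (fun i => f i a * g i b * h i c)).symm

lemma Rk.add {R1 R2 : ℕ} {F G : κ → κ → κ → A} (h1 : Rk R1 F) (h2 : Rk R2 G) :
    Rk (R1 + R2) (fun a b c => F a b c + G a b c) := by
  obtain ⟨f, g, h, e⟩ := h1
  obtain ⟨f', g', h', e'⟩ := h2
  apply Rk.of_fintype (ι := Fin R1 ⊕ Fin R2) (by simp) (Sum.elim f f') (Sum.elim g g')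
    (Sum.elim h h')
  intro a b c
  simp [e, e']

lemma Rk.neg {R : ℕ} {F : κ → κ → κ → A} (h1 : Rk R F) : Rk R (fun a b c => - F a b c) := by
  obtain ⟨f, g, h, e⟩ := h1
  refine ⟨fun i a => - f i a, g, h, fun a b c => ?_⟩
  simp [e]

lemma Rk.sub {R1 R2 : ℕ} {F G : κ → κ → κ → A} (h1 : Rk R1 F) (h2 : Rk R2 G) :
    Rk (R1 + R2) (fun a b c => F a b c - G a b c) := by
  simpa [sub_eq_add_neg] using h1.add h2.neg

lemma Rk.mul {R1 R2 : ℕ} {F G : κ → κ → κ → A} (h1 : Rk R1 F) (h2 : Rk R2 G) :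
    Rk (R1 * R2) (fun a b c => F a b c * G a b c) := by
  obtain ⟨f, g, h, e⟩ := h1
  obtain ⟨f', g', h', e'⟩ := h2
  apply Rk.of_fintype (ι := Fin R1 × Fin R2) (by simp) (fun i a => f i.1 a * f' i.2 a)
    (fun i a => g i.1 a * g' i.2 a) (fun i a => h i.1 a * h' i.2 a)
  intro a b c
  rw [e, e', Finset.sum_mul_sum, Fintype.sum_prod_type]
  apply Finset.sum_congr rfl
  intro i _
  apply Finset.sum_congr rfl
  intro j _
  ring

lemma Rk.mono (u v w : κ → Matrix (Fin 3) (Fin 3) A) (i j : Fin 3) :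
    Rk 9 (fun a b c => (u a * v b * w c) i j) := by
  apply Rk.of_fintype (ι := Fin 3 × Fin 3) (by simp) (fun k a => u a i k.2)
    (fun k a => v a k.2 k.1) (fun k a => w a k.1 j)
  intro a b c
  simp only [Matrix.mul_apply, Fintype.sum_prod_type, Finset.sum_mul]

lemma Rk.congr {R R' : ℕ} {F G : κ → κ → κ → A} (h1 : Rk R F) (e : R = R')
    (h : ∀ a b c, G a b c = F a b c) : Rk R' G := by
  subst e
  obtain ⟨f, g, h', e⟩ := h1
  exact ⟨f, g, h', fun a b c => (h a b c).trans (e a b c)⟩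

/-- determinant of three functions at three points -/
def d3 (f g h : κ → A) (a b c : κ) : A :=
  f a * g b * h c + f b * g c * h a + f c * g a * h b
    - f a * g c * h b - f b * g a * h c - f c * g b * h a

end

theorem algebraA : ∃ R : ℕ, 0 < R ∧ ∀ (p : ℕ) [Fact p.Prime], 5 ≤ p →
    ∃ f g h : Fin R → Fin (p ^ 3) → ZMod p, ∀ a b c, a ≠ b → a ≠ c → b ≠ c →
      ∑ s, d3 (f s) (g s) (h s) a b c ≠ 0 := by
  refine ⟨944784, by norm_num, fun p _ hp => ?_⟩
  let K := GaloisField p 3
  have hfr : Module.finrank (ZMod p) K = 3 := GaloisField.finrank p (by norm_num)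
  let bs := Module.finBasisOfFinrankEq (ZMod p) K hfr
  let e : Fin (p ^ 3) ≃ K := (Finite.equivFinOfCardEq (GaloisField.card p 3 (by norm_num))).symm
  let L := Algebra.leftMulMatrix bs
  let W : Fin (p ^ 3) → Fin (p ^ 3) → Fin (p ^ 3) → K :=
    fun a b c => (e a - e b) * (e b - e c) * (e c - e a)
  have h1 : ∀ i j, Rk 54 (fun a b c => L (W a b c) i j) := by
    intro i j
    have m := fun (x y z : ℕ) => Rk.mono (fun a => L (e a ^ x)) (fun a => L (e a ^ y))
      (fun a => L (e a ^ z)) i j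
    refine Rk.congr ((((((m 2 0 1).add (m 1 2 0)).add (m 0 1 2)).sub (m 2 1 0)).sub
      (m 0 2 1)).sub (m 1 0 2)) (by norm_num) ?_
    intro a b c
    simp only [← map_mul]
    rw [← Matrix.add_apply, ← Matrix.add_apply, ← Matrix.sub_apply, ← Matrix.sub_apply,
      ← Matrix.sub_apply, ← map_add, ← map_add, ← map_sub, ← map_sub, ← map_sub]
    refine congrArg (fun x => L x i j) ?_
    simp only [W]
    ring
  have h2 : Rk 944784 (fun a b c => (L (W a b c)).det) := by
    have m := fun (i j k l x y : Fin 3) => ((h1 i j).mul (h1 k l)).mul (h1 x y)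
    refine Rk.congr ((((((m 0 0 1 1 2 2).sub (m 0 0 1 2 2 1)).sub (m 0 1 1 0 2 2)).add
      (m 0 1 1 2 2 0)).add (m 0 2 1 0 2 1)).sub (m 0 2 1 1 2 0)) (by norm_num) ?_
    intro a b c
    rw [Matrix.det_fin_three]
  obtain ⟨f, g, h, hF⟩ := h2
  refine ⟨f, g, h, fun a b c hab hac hbc => ?_⟩
  have hneg : ∀ x : K, (L (-x)).det = - (L x).det := by
    intro x
    rw [map_neg, Matrix.det_neg]
    simp
    ring
  have e1 : W b c a = W a b c := by simp only [W]; ring
  have e2 : W c a b = W a b c := by simp only [W]; ring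
  have e3 : W a c b = - W a b c := by simp only [W]; ring
  have e4 : W b a c = - W a b c := by simp only [W]; ring
  have e5 : W c b a = - W a b c := by simp only [W]; ring
  have hsum : ∑ s, d3 (f s) (g s) (h s) a b c = 6 * (L (W a b c)).det := by
    simp only [d3, Finset.sum_add_distrib, Finset.sum_sub_distrib]
    simp only [← hF]
    rw [e1, e2, e3, e4, e5, hneg]
    ring
  rw [hsum]
  apply mul_ne_zero
  · intro h6
    have : ((6 : ℕ) : ZMod p) = 0 := by exact_mod_cast h6
    rw [ZMod.natCast_eq_zero_iff] at this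
    have hp' : p.Prime := Fact.out
    have h23 : p ∣ 2 * 3 := this
    rcases (Nat.Prime.dvd_mul hp').1 h23 with h | h
    · have := Nat.le_of_dvd (by norm_num) h; omega
    · have := Nat.le_of_dvd (by norm_num) h; omega
  · rw [← Algebra.norm_eq_matrix_det bs, Algebra.norm_ne_zero_iff]
    exact mul_ne_zero (mul_ne_zero (sub_ne_zero.2 (e.injective.ne hab))
      (sub_ne_zero.2 (e.injective.ne hbc))) (sub_ne_zero.2 (e.injective.ne hac.symm))

end Vale.Agent.P036
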