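import Mathlib

namespace Vale.Agent.P036

open Finset Matrix

abbrev V := Fin 3 → ℤ

lemma card_le_fibers {α β : Type*} [DecidableEq β] (s : Finset α) (t : Finset β) (f : α → β)
    (hf : ∀ a ∈ s, f a ∈ t) (K : ℝ)
    (h : ∀ b ∈ t, ((s.filter (fun a => f a = b)).card : ℝ) ≤ K) :
    (s.card : ℝ) ≤ t.card * K := by
  rw [Finset.card_eq_sum_card_fiberwise (f := f) (t := t) (fun a ha => hf a ha)]
  push_cast
  calc ∑ b ∈ t, (((s.filter (fun a => f a = b)).card : ℕ) : ℝ) ≤ ∑ _b ∈ t, K :=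
        Finset.sum_le_sum h
    _ = t.card * K := by simp

lemma card_le_fibers' {α β : Type*} [DecidableEq β] (s : Finset α) (f : α → β) (K L : ℝ)
    (hK : 0 ≤ K) (hL : ((s.image f).card : ℝ) ≤ L)
    (h : ∀ a ∈ s, ((s.filter (fun a' => f a' = f a)).card : ℝ) ≤ K) :
    (s.card : ℝ) ≤ L * K := by
  have := card_le_fibers s (s.image f) f (fun a ha => Finset.mem_image_of_mem f ha) K (by
    intro b hb
    obtain ⟨a, ha, rfl⟩ := Finset.mem_image.1 hb
    exact h a ha)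
  exact this.trans (mul_le_mul_of_nonneg_right hL hK)

/-- integers in an interval of length `T` in one residue class mod `M` -/
lemma CL (s : Finset ℤ) (lo T M : ℤ) (hT : 0 ≤ T) (hM : 0 < M)
    (hs : ∀ a ∈ s, lo ≤ a ∧ a < lo + T) (hd : ∀ a ∈ s, ∀ b ∈ s, M ∣ a - b) :
    (s.card : ℝ) ≤ T / M + 1 := by
  have h1 : s.card ≤ (Finset.Icc (0 : ℤ) (T / M)).card := by
    apply Finset.card_le_card_of_injOn (fun a => (a - lo) / M)
    · intro a ha
      have := hs a ha
      simp only [Finset.coe_Icc, Set.mem_Icc]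
      exact ⟨Int.ediv_nonneg (by omega) hM.le, Int.ediv_le_ediv hM (by omega)⟩
    · intro a ha b hb hab
      have hab' : (a - lo) / M = (b - lo) / M := hab
      obtain ⟨c, hc⟩ := hd a ha b hb
      have h2 : a - lo = (b - lo) + c * M := by linarith
      rw [h2, Int.add_mul_ediv_right _ _ hM.ne'] at hab'
      have : c = 0 := by linarith
      rw [this] at hc
      linarith
  rw [Int.card_Icc] at h1
  have h3 : (0 : ℤ) ≤ T / M := Int.ediv_nonneg hT hM.le
  have h4 : (s.card : ℤ) ≤ T / M + 1 := by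
    have : ((T / M + 1 - 0).toNat : ℤ) = T / M + 1 := by
      rw [Int.toNat_of_nonneg (by omega)]; ring
    omega
  have h5 : ((T / M : ℤ) : ℝ) ≤ (T : ℝ) / M := by
    have hM' : (0 : ℝ) < M := by exact_mod_cast hM
    rw [le_div_iff₀ hM']
    exact_mod_cast Int.ediv_mul_le T hM.ne'
  have h6 : (s.card : ℝ) ≤ ((T / M : ℤ) : ℝ) + 1 := by exact_mod_cast h4
  linarith

/-- three level counting in a cube of side `T` -/
lemma G3 (s : Finset V) (lo T M0 M1 M2 : ℤ) (hT : 0 ≤ T) (h0 : 0 < M0) (h1 : 0 < M1)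
    (h2 : 0 < M2) (i j k : Fin 3)
    (hext : ∀ r r' : V, r i = r' i → r j = r' j → r k = r' k → r = r')
    (hs : ∀ r ∈ s, ∀ l, lo ≤ r l ∧ r l < lo + T)
    (d0 : ∀ r ∈ s, ∀ r' ∈ s, M0 ∣ r i - r' i)
    (d1 : ∀ r ∈ s, ∀ r' ∈ s, r i = r' i → M1 ∣ r j - r' j)
    (d2 : ∀ r ∈ s, ∀ r' ∈ s, r i = r' i → r j = r' j → M2 ∣ r k - r' k) :
    (s.card : ℝ) ≤ (T / M0 + 1) * ((T / M1 + 1) * (T / M2 + 1)) := by
  have hT' : (0 : ℝ) ≤ T := by exact_mod_cast hT
  have h1' : (0 : ℝ) < M1 := by exact_mod_cast h1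
  have h2' : (0 : ℝ) < M2 := by exact_mod_cast h2
  apply card_le_fibers' s (fun r => r i) _ _ (by positivity)
  · apply CL _ lo T M0 hT h0
    · intro a ha
      obtain ⟨r, hr, rfl⟩ := Finset.mem_image.1 ha
      exact hs r hr i
    · intro a ha b hb
      obtain ⟨r, hr, rfl⟩ := Finset.mem_image.1 ha
      obtain ⟨r', hr', rfl⟩ := Finset.mem_image.1 hb
      exact d0 r hr r' hr'
  · intro r0 hr0
    apply card_le_fibers' _ (fun r => r j) _ _ (by positivity)
    · apply CL _ lo T M1 hT h1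
      · intro a ha
        obtain ⟨r, hr, rfl⟩ := Finset.mem_image.1 ha
        exact hs r (Finset.mem_filter.1 hr).1 j
      · intro a ha b hb
        obtain ⟨r, hr, rfl⟩ := Finset.mem_image.1 ha
        obtain ⟨r', hr', rfl⟩ := Finset.mem_image.1 hb
        rw [Finset.mem_filter] at hr hr'
        exact d1 r hr.1 r' hr'.1 (hr.2.trans hr'.2.symm)
    · intro r1 hr1
      rw [← Finset.card_image_of_injOn (f := fun r : V => r k)]
      · apply CL _ lo T M2 hT h2
        · intro a ha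
          obtain ⟨r, hr, rfl⟩ := Finset.mem_image.1 ha
          exact hs r (Finset.mem_filter.1 (Finset.mem_filter.1 hr).1).1 k
        · intro a ha b hb
          obtain ⟨r, hr, rfl⟩ := Finset.mem_image.1 ha
          obtain ⟨r', hr', rfl⟩ := Finset.mem_image.1 hb
          simp only [Finset.mem_filter] at hr hr'
          exact d2 r hr.1.1 r' hr'.1.1 (hr.1.2.trans hr'.1.2.symm) (hr.2.trans hr'.2.symm)
      · intro r hr r' hr' hrr
        simp only [Finset.coe_filter, Finset.mem_filter, Set.mem_ofPred_eq] at hr hr'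
        exact hext r r' (hr.1.2.trans hr'.1.2.symm) (hr.2.trans hr'.2.symm) hrr

lemma ext012 (i : Fin 3) (r r' : V) (h0 : r i = r' i) (h1 : r (i + 1) = r' (i + 1))
    (h2 : r (i + 2) = r' (i + 2)) : r = r' := by
  funext l
  fin_cases i <;> fin_cases l <;> simp_all

lemma dot_rot {R : Type*} [CommRing R] (i : Fin 3) (w r : Fin 3 → R) :
    w ⬝ᵥ r = w i * r i + w (i + 1) * r (i + 1) + w (i + 2) * r (i + 2) := by
  fin_cases i <;> simp [dotProduct, Fin.sum_univ_three] <;> ring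

lemma cross_rot {R : Type*} [CommRing R] (i : Fin 3) (u v : Fin 3 → R) :
    (u ⨯₃ v) (i + 2) = u i * v (i + 1) - u (i + 1) * v i := by
  fin_cases i <;> simp [cross_apply]

/-- primitive integer vectors -/
def Prim (a : V) : Prop := ∃ b : V, b ⬝ᵥ a = 1

/-- the sup norm -/
def nrm (w : V) : ℕ := Finset.univ.sup (fun i => (w i).natAbs)

lemma abs_le_nrm (w : V) (i : Fin 3) : |w i| ≤ nrm w := by
  have : (w i).natAbs ≤ nrm w := Finset.le_sup (f := fun i => (w i).natAbs) (Finset.mem_univ i)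
  rw [← Int.natCast_natAbs]
  exact_mod_cast this

lemma exists_nrm (w : V) : ∃ i, |w i| = nrm w := by
  obtain ⟨i, -, hi⟩ := Finset.exists_mem_eq_sup (Finset.univ : Finset (Fin 3))
    Finset.univ_nonempty (fun i => (w i).natAbs)
  refine ⟨i, ?_⟩
  rw [← Int.natCast_natAbs, nrm, hi]

lemma Prim.dvd {a : V} (ha : Prim a) {m c : ℤ} (h : ∀ i, m ∣ c * a i) : m ∣ c := by
  obtain ⟨b, hb⟩ := ha
  have : c = b 0 * (c * a 0) + b 1 * (c * a 1) + b 2 * (c * a 2) := by
    simp only [dotProduct, Fin.sum_univ_three] at hb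
    linear_combination (-c) * hb
  rw [this]
  exact dvd_add (dvd_add (Dvd.dvd.mul_left (h 0) _) (Dvd.dvd.mul_left (h 1) _))
    (Dvd.dvd.mul_left (h 2) _)

lemma Prim.ne_zero {a : V} (ha : Prim a) : a ≠ 0 := by
  rintro rfl
  obtain ⟨b, hb⟩ := ha
  simp at hb

lemma Prim.nrm_pos {a : V} (ha : Prim a) : 0 < nrm a := by
  by_contra h
  apply ha.ne_zero
  funext i
  have := abs_le_nrm a i
  have h0 : nrm a = 0 := by omega
  rw [h0] at this
  simpa using this

lemma Prim.par {a u : V} (ha : Prim a) (h : u ⨯₃ a = 0) : ∃ c : ℤ, u = c • a := by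
  obtain ⟨b, hb⟩ := ha
  refine ⟨b ⬝ᵥ u, ?_⟩
  have h0 := congrFun h 0
  have h1 := congrFun h 1
  have h2 := congrFun h 2
  simp only [cross_apply, dotProduct, Fin.sum_univ_three] at hb h0 h1 h2 ⊢
  simp at h0 h1 h2
  funext i
  fin_cases i <;> simp
  · linear_combination (-u 0) * hb + b 1 * h2 - b 2 * h1
  · linear_combination (-u 1) * hb - b 0 * h2 + b 2 * h0
  · linear_combination (-u 2) * hb + b 0 * h1 - b 1 * h0

lemma exists_prim (u : V) (hu : u ≠ 0) : ∃ (d : ℤ) (w : V), d ≠ 0 ∧ Prim w ∧ u = d • w := by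
  set g : ℤ := (Int.gcd (u 0) (Int.gcd (u 1) (u 2)) : ℤ) with hg
  have g0 : g ∣ u 0 := Int.gcd_dvd_left ..
  have g12 : g ∣ (Int.gcd (u 1) (u 2) : ℤ) := Int.gcd_dvd_right ..
  have g1 : g ∣ u 1 := g12.trans (Int.gcd_dvd_left ..)
  have g2 : g ∣ u 2 := g12.trans (Int.gcd_dvd_right ..)
  obtain ⟨w0, h0⟩ := g0
  obtain ⟨w1, h1⟩ := g1
  obtain ⟨w2, h2⟩ := g2
  have hne : g ≠ 0 := by
    intro h
    apply hu
    funext i
    fin_cases i <;> simp [h0, h1, h2, h]
  have e1 := Int.gcd_eq_gcd_ab (u 0) (Int.gcd (u 1) (u 2))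
  have e2 := Int.gcd_eq_gcd_ab (u 1) (u 2)
  set A := Int.gcdA (u 0) (Int.gcd (u 1) (u 2))
  set B := Int.gcdB (u 0) (Int.gcd (u 1) (u 2))
  set A' := Int.gcdA (u 1) (u 2)
  set B' := Int.gcdB (u 1) (u 2)
  refine ⟨g, ![w0, w1, w2], hne, ⟨![A, A' * B, B' * B], ?_⟩, ?_⟩
  · simp only [dotProduct, Fin.sum_univ_three]
    simp
    apply mul_left_cancel₀ hne
    rw [← hg, e2] at e1
    linear_combination (-1 : ℤ) * e1 - A * h0 - A' * B * h1 - B' * B * h2
  · funext i
    fin_cases i <;> simp [h0, h1, h2]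

/-- two vectors orthogonal to `w` have cross product parallel to `w` -/
lemma cross_par {R : Type*} [CommRing R] {u v w : Fin 3 → R} (hu : w ⬝ᵥ u = 0) (hv : w ⬝ᵥ v = 0) :
    (u ⨯₃ v) ⨯₃ w = 0 := by
  simp only [cross_apply, dotProduct, Fin.sum_univ_three] at hu hv ⊢
  funext i
  fin_cases i <;> simp
  · linear_combination v 0 * hu - u 0 * hv
  · linear_combination v 1 * hu - u 1 * hv
  · linear_combination v 2 * hu - u 2 * hv

lemma L1 (s : Finset V) (w : V) (hw : Prim w) (lo T m : ℤ) (hm : 0 < m) (hT : m * nrm w ≤ T)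
    (hs : ∀ r ∈ s, ∀ l, lo ≤ r l ∧ r l < lo + T)
    (hdot : ∀ r ∈ s, ∀ r' ∈ s, w ⬝ᵥ r = w ⬝ᵥ r')
    (hmod : ∀ r ∈ s, ∀ r' ∈ s, ∀ l, m ∣ r l - r' l) :
    (s.card : ℝ) ≤ 8 * T ^ 2 / (m ^ 2 * nrm w) := by
  obtain ⟨i, hi⟩ := exists_nrm w
  have hW : (0 : ℤ) < nrm w := by exact_mod_cast hw.nrm_pos
  have hwi : w i ≠ 0 := by
    intro h; rw [h] at hi; simp at hi; omega
  set d : ℤ := (Int.gcd (w i) (w (i + 1)) : ℤ) with hd
  have hd0 : 0 < d := by
    have : Int.gcd (w i) (w (i + 1)) ≠ 0 := by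
      intro h
      exact hwi (Int.gcd_eq_zero_iff.1 h).1
    omega
  obtain ⟨e, he⟩ : d ∣ w i := Int.gcd_dvd_left ..
  obtain ⟨f, hf⟩ : d ∣ w (i + 1) := Int.gcd_dvd_right ..
  have hcop : IsCoprime e f := by
    have e1 := Int.gcd_eq_gcd_ab (w i) (w (i + 1))
    refine ⟨Int.gcdA (w i) (w (i + 1)), Int.gcdB (w i) (w (i + 1)), ?_⟩
    apply mul_left_cancel₀ hd0.ne'
    rw [← hd] at e1
    linear_combination (-1 : ℤ) * e1 - Int.gcdA (w i) (w (i + 1)) * he
      - Int.gcdB (w i) (w (i + 1)) * hf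
  have he0 : e ≠ 0 := by rintro rfl; simp at he; exact hwi he
  have hWe : (nrm w : ℤ) = d * |e| := by rw [← hi, he, abs_mul, abs_of_pos hd0]
  have hepos : 0 < |e| := abs_pos.2 he0
  have hTpos : 0 < T := lt_of_lt_of_le (by positivity) hT
  have key := G3 s lo T (m * d) (m * |e|) T hTpos.le (by positivity) (by positivity) hTpos
    (i + 2) (i + 1) i (fun r r' a b c => ext012 i r r' c b a) hs ?_ ?_ ?_
  · have hm' : (0 : ℝ) < m := by exact_mod_cast hm
    have hd' : (0 : ℝ) < d := by exact_mod_cast hd0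
    have he' : (0 : ℝ) < ((|e| : ℤ) : ℝ) := by exact_mod_cast hepos
    have hT' : (0 : ℝ) < T := by exact_mod_cast hTpos
    have hWr : ((nrm w : ℕ) : ℝ) = d * ((|e| : ℤ) : ℝ) := by exact_mod_cast hWe
    have hTr : (m : ℝ) * (d * ((|e| : ℤ) : ℝ)) ≤ T := by
      rw [← hWr]; exact_mod_cast hT
    have hd1 : (1 : ℝ) ≤ d := by exact_mod_cast hd0
    have he1 : (1 : ℝ) ≤ ((|e| : ℤ) : ℝ) := by exact_mod_cast hepos
    rw [Int.cast_mul, Int.cast_mul] at key
    generalize ((|e| : ℤ) : ℝ) = E at *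
    rw [hWr]
    have a1 : (T : ℝ) / (m * d) + 1 ≤ 2 * T / (m * d) := by
      have : (1 : ℝ) ≤ T / (m * d) := by
        rw [le_div_iff₀ (by positivity)]
        nlinarith [mul_pos hm' hd']
      rw [mul_div_assoc]; linarith
    have a2 : (T : ℝ) / (m * E) + 1 ≤ 2 * T / (m * E) := by
      have : (1 : ℝ) ≤ T / (m * E) := by
        rw [le_div_iff₀ (by positivity)]
        nlinarith [mul_pos hm' he']
      rw [mul_div_assoc]; linarith
    have a3 : (T : ℝ) / T + 1 = 2 := by rw [div_self hT'.ne']; norm_num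
    rw [a3] at key
    calc (s.card : ℝ) ≤ (T / (m * d) + 1) * ((T / (m * E) + 1) * 2) := key
      _ ≤ (2 * T / (m * d)) * ((2 * T / (m * E)) * 2) := by gcongr
      _ = 8 * T ^ 2 / (m ^ 2 * (d * E)) := by field_simp; ring
  · intro r hr r' hr'
    have h := hdot r hr r' hr'
    rw [dot_rot i, dot_rot i w r'] at h
    obtain ⟨c0, hc0⟩ := hmod r hr r' hr' i
    obtain ⟨c1, hc1⟩ := hmod r hr r' hr' (i + 1)
    obtain ⟨c2, hc2⟩ := hmod r hr r' hr' (i + 2)
    have h3 : w i * c0 + w (i + 1) * c1 + w (i + 2) * c2 = 0 := by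
      apply mul_left_cancel₀ hm.ne'
      linear_combination h - w i * hc0 - w (i + 1) * hc1 - w (i + 2) * hc2
    have h4 : d ∣ c2 := by
      obtain ⟨b, hb⟩ := hw
      rw [dot_rot i] at hb
      refine ⟨c2 * (b i * e + b (i + 1) * f) - b (i + 2) * (e * c0 + f * c1), ?_⟩
      linear_combination (-c2) * hb + b (i + 2) * h3 + (c2 * b i - b (i + 2) * c0) * he
        + (c2 * b (i + 1) - b (i + 2) * c1) * hf
    rw [hc2]
    exact mul_dvd_mul_left m h4
  · intro r hr r' hr' h2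
    have h := hdot r hr r' hr'
    rw [dot_rot i, dot_rot i w r'] at h
    obtain ⟨c0, hc0⟩ := hmod r hr r' hr' i
    obtain ⟨c1, hc1⟩ := hmod r hr r' hr' (i + 1)
    have h3 : e * c0 + f * c1 = 0 := by
      apply mul_left_cancel₀ (mul_pos hm hd0).ne'
      linear_combination h - w i * hc0 - w (i + 1) * hc1 - w (i + 2) * h2
        - m * c0 * he - m * c1 * hf
    have h4 : e ∣ c1 := by
      apply hcop.dvd_of_dvd_mul_left
      exact ⟨-c0, by linear_combination h3⟩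
    rw [hc1]
    exact mul_dvd_mul_left m ((abs_dvd _ _).2 h4)
  · intro r hr r' hr' h2 h1
    have h := hdot r hr r' hr'
    rw [dot_rot i, dot_rot i w r'] at h
    have : r i - r' i = 0 := by
      apply mul_left_cancel₀ hwi
      linear_combination h - w (i + 1) * h1 - w (i + 2) * h2
    rw [this]
    exact dvd_zero _

/-- separated reals -/
lemma sep_card {α : Type*} (s : Finset α) (ρ : α → ℝ) (δ : ℝ) (hδ : 0 < δ)
    (h1 : ∀ a ∈ s, |ρ a| ≤ 1) (h2 : ∀ a ∈ s, ∀ b ∈ s, a ≠ b → δ ≤ |ρ a - ρ b|) :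
    (s.card : ℝ) ≤ 2 / δ + 1 := by
  have h3 : s.card ≤ (Finset.Icc (0 : ℤ) ⌊2 / δ⌋).card := by
    apply Finset.card_le_card_of_injOn (fun a => ⌊(ρ a + 1) / δ⌋)
    · intro a ha
      have := abs_le.1 (h1 a ha)
      simp only [Finset.coe_Icc, Set.mem_Icc]
      refine ⟨Int.floor_nonneg.2 (div_nonneg (by linarith) hδ.le), Int.floor_le_floor ?_⟩
      exact div_le_div_of_nonneg_right (by linarith) hδ.le
    · intro a ha b hb hab
      by_contra hne
      have h4 := h2 a ha b hb hne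
      have h5 : |(ρ a + 1) / δ - (ρ b + 1) / δ| < 1 := Int.abs_sub_lt_one_of_floor_eq_floor hab
      have h6 : (ρ a + 1) / δ - (ρ b + 1) / δ = (ρ a - ρ b) / δ := by ring
      rw [h6, abs_div, abs_of_pos hδ, div_lt_one hδ] at h5
      linarith
  rw [Int.card_Icc] at h3
  have h4 : (0 : ℤ) ≤ ⌊2 / δ⌋ := Int.floor_nonneg.2 (by positivity)
  have h5 : (s.card : ℤ) ≤ ⌊2 / δ⌋ + 1 := by omega
  have h6 : (s.card : ℝ) ≤ (⌊2 / δ⌋ : ℝ) + 1 := by exact_mod_cast h5
  linarith [Int.floor_le (2 / δ)]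

lemma L2 (s : Finset V) (z : V) (hz : Prim z) (Z W m : ℤ) (hZ : 0 < Z) (hW : 0 < W) (hm : 0 < m)
    (hzZ : ∀ l, Z < z l)
    (hs : ∀ w ∈ s, Prim w ∧ w ⬝ᵥ z = 0 ∧ W ≤ nrm w ∧ nrm w < 2 * W)
    (hmod : ∀ w ∈ s, ∀ w' ∈ s, ∀ l, m ∣ (w ⨯₃ w') l) :
    (s.card : ℝ) ≤ 6 * (8 * W ^ 2 / (m * Z) + 1) := by
  classical
  have hZ' : (0 : ℝ) < Z := by exact_mod_cast hZ
  have hW' : (0 : ℝ) < W := by exact_mod_cast hW
  have hm' : (0 : ℝ) < m := by exact_mod_cast hm
  let ix : V → Fin 3 := fun w => (exists_nrm w).choose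
  have hix : ∀ w, |w (ix w)| = nrm w := fun w => (exists_nrm w).choose_spec
  have key := card_le_fibers s (Finset.univ : Finset (Fin 3 × Bool))
    (fun w => (ix w, decide (0 < w (ix w)))) (fun _ _ => Finset.mem_univ _)
    (8 * W ^ 2 / (m * Z) + 1) ?_
  · simpa using key
  · rintro ⟨i, sg⟩ -
    have h8 : (8 * W ^ 2 / (m * Z) : ℝ) = 2 / (m * Z / (4 * W ^ 2)) := by field_simp; ring
    rw [h8]
    apply sep_card _ (fun w => (w (i + 1) : ℝ) / w i) _ (by positivity)
    · intro w hw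
      simp only [Finset.mem_filter, Prod.mk.injEq] at hw
      obtain ⟨hw, rfl, -⟩ := hw
      have h1 := hix w
      have h2 := abs_le_nrm w (ix w + 1)
      have h3 := (hs w hw).2.2.1
      have h4 : (0 : ℤ) < |w (ix w)| := by omega
      rw [abs_div, div_le_one (by exact_mod_cast h4)]
      exact_mod_cast h2.trans h1.ge
    · intro w hw w' hw' hne
      simp only [Finset.mem_filter, Prod.mk.injEq] at hw hw'
      obtain ⟨hw, hi, hsg⟩ := hw
      obtain ⟨hw', hi', hsg'⟩ := hw'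
      have h1 := hix w
      have h1' := hix w'
      rw [hi] at h1 hsg
      rw [hi'] at h1' hsg'
      obtain ⟨pw, dw, lw, uw⟩ := hs w hw
      obtain ⟨pw', dw', lw', uw'⟩ := hs w' hw'
      have hpar : (w ⨯₃ w') ⨯₃ z = 0 :=
        cross_par (by rw [dotProduct_comm]; exact dw) (by rw [dotProduct_comm]; exact dw')
      obtain ⟨c, hc⟩ := hz.par hpar
      have hmc : m ∣ c := by
        apply hz.dvd
        intro l
        have := hmod w hw w' hw' l
        rwa [hc] at this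
      have hc0 : c ≠ 0 := by
        rintro rfl
        rw [zero_smul] at hc
        obtain ⟨c1, hc1⟩ := pw'.par hc
        have hu : c1 ∣ 1 := by
          obtain ⟨b, hb⟩ := pw
          rw [hc1] at hb
          exact ⟨b ⬝ᵥ w', by rw [← hb, dotProduct_smul, smul_eq_mul]⟩
        have hwi : w i = c1 * w' i := by rw [hc1]; simp
        rcases Int.isUnit_iff.1 (isUnit_of_dvd_one hu) with h | h
        · apply hne; rw [hc1, h, one_smul]
        · rw [h] at hwi
          have hsame : (0 < w i) ↔ (0 < w' i) := by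
            rw [← decide_eq_decide, hsg, hsg']
          have : w' i ≠ 0 := by
            intro h0; rw [h0] at h1'; simp at h1'; omega
          omega
      have hcm : m ≤ |c| := Int.le_of_dvd (abs_pos.2 hc0) ((dvd_abs _ _).2 hmc)
      have hcr : w i * w' (i + 1) - w (i + 1) * w' i = c * z (i + 2) := by
        rw [← cross_rot, hc]; simp
      have hwi0 : (0 : ℤ) < |w i| := by omega
      have hwi0' : (0 : ℤ) < |w' i| := by omega
      have hwiR : (w i : ℝ) ≠ 0 := by exact_mod_cast abs_pos.1 hwi0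
      have hwiR' : (w' i : ℝ) ≠ 0 := by exact_mod_cast abs_pos.1 hwi0'
      have e1 : (w (i + 1) : ℝ) / w i - (w' (i + 1) : ℝ) / w' i
          = - ((c * z (i + 2) : ℤ) : ℝ) / ((w i * w' i : ℤ) : ℝ) := by
        rw [← hcr]; push_cast; field_simp; ring
      rw [e1, abs_div, abs_neg]
      have n1 : m * Z ≤ |c * z (i + 2)| := by
        rw [abs_mul, abs_of_pos (hZ.trans (hzZ _))]
        exact mul_le_mul hcm (hzZ _).le hZ.le (abs_nonneg _)
      have n2 : |w i * w' i| ≤ 4 * W ^ 2 := by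
        rw [abs_mul]
        nlinarith
      have n3 : 0 < |w i * w' i| := by rw [abs_mul]; positivity
      have n1' : (m : ℝ) * Z ≤ |((c * z (i + 2) : ℤ) : ℝ)| := by exact_mod_cast n1
      have n2' : |((w i * w' i : ℤ) : ℝ)| ≤ 4 * W ^ 2 := by exact_mod_cast n2
      have n3' : 0 < |((w i * w' i : ℤ) : ℝ)| := by exact_mod_cast n3
      exact div_le_div₀ (abs_nonneg _) n1' n3' n2'

lemma cross_bound {u v : V} {N : ℤ} (hu : ∀ l, 0 ≤ u l ∧ u l ≤ N) (hv : ∀ l, 0 ≤ v l ∧ v l ≤ N)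
    (i : Fin 3) : |(u ⨯₃ v) i| ≤ N ^ 2 := by
  have : ∀ j, |(u ⨯₃ v) (j + 2)| ≤ N ^ 2 := by
    intro j
    rw [cross_rot]
    have a1 := mul_nonneg (hu j).1 (hv (j + 1)).1
    have a2 := mul_nonneg (hu (j + 1)).1 (hv j).1
    have a3 := mul_le_mul (hu j).2 (hv (j + 1)).2 (hv _).1 ((hu j).1.trans (hu j).2)
    have a4 := mul_le_mul (hu (j + 1)).2 (hv j).2 (hv _).1 ((hu j).1.trans (hu j).2)
    rw [abs_le]
    constructor <;> nlinarith
  have h := this (i + 1)
  have e : i + 1 + 2 = i := by fin_cases i <;> rfl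
  rwa [e] at h

lemma L3 (s : Finset V) (z w : V) (hz : Prim z) (hw : Prim w) (hwz : w ⬝ᵥ z = 0) (Z m : ℤ)
    (hZ : 0 < Z) (hm : 0 < m) (hzZ : ∀ l, Z < z l ∧ z l ≤ 8 * Z) (hW : m * nrm w ≤ 64 * Z ^ 2)
    (hs : ∀ r ∈ s, ∀ l, 0 ≤ r l ∧ r l < 8 * Z)
    (hdot : ∀ r ∈ s, ∀ r' ∈ s, w ⬝ᵥ r = w ⬝ᵥ r')
    (hmod : ∀ r ∈ s, ∀ l, m ∣ (r ⨯₃ z) l) :
    (s.card : ℝ) ≤ 2000 * Z ^ 2 / (m * nrm w) := by
  obtain ⟨i, hi⟩ := exists_nrm w
  have hWp : (0 : ℤ) < nrm w := by exact_mod_cast hw.nrm_pos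
  have hZ' : (0 : ℝ) < Z := by exact_mod_cast hZ
  have hm' : (0 : ℝ) < m := by exact_mod_cast hm
  have hWp' : (0 : ℝ) < nrm w := by exact_mod_cast hw.nrm_pos
  have hdiff : ∀ r ∈ s, ∀ r' ∈ s, ∃ c : ℤ, (r - r') ⨯₃ z = c • w ∧ m ∣ c := by
    intro r hr r' hr'
    have h1 : ((r - r') ⨯₃ z) ⨯₃ w = 0 :=
      cross_par (by rw [dotProduct_sub, hdot r hr r' hr', sub_self]) hwz
    obtain ⟨c, hc⟩ := hw.par h1
    refine ⟨c, hc, hw.dvd fun l => ?_⟩
    have h2 : c * w l = (r ⨯₃ z) l - (r' ⨯₃ z) l := by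
      have := congrFun hc l
      rw [map_sub] at this
      simpa using this.symm
    rw [h2]
    exact dvd_sub (hmod r hr l) (hmod r' hr' l)
  have key := card_le_fibers' s (fun r => (r ⨯₃ z) i) 9 (200 * Z ^ 2 / (m * nrm w))
    (by norm_num) ?_ ?_
  · calc (s.card : ℝ) ≤ 200 * Z ^ 2 / (m * nrm w) * 9 := key
      _ = 1800 * Z ^ 2 / (m * nrm w) := by ring
      _ ≤ 2000 * Z ^ 2 / (m * nrm w) := by gcongr; norm_num
  · have h1 := CL (s.image (fun r => (r ⨯₃ z) i)) (-(8 * Z) ^ 2) (129 * Z ^ 2) (m * nrm w)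
      (by positivity) (by positivity) ?_ ?_
    · have hW' : (m : ℝ) * nrm w ≤ 64 * Z ^ 2 := by exact_mod_cast hW
      have : (1 : ℝ) ≤ 64 * Z ^ 2 / (m * nrm w) := by
        rw [le_div_iff₀ (by positivity)]; linarith
      push_cast at h1
      calc _ ≤ _ := h1
        _ ≤ 129 * Z ^ 2 / (m * nrm w) + 64 * Z ^ 2 / (m * nrm w) := by linarith
        _ = 193 * Z ^ 2 / (m * nrm w) := by ring
        _ ≤ 200 * Z ^ 2 / (m * nrm w) := by gcongr; norm_num
    · intro a ha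
      obtain ⟨r, hr, rfl⟩ := Finset.mem_image.1 ha
      have := cross_bound (u := r) (v := z) (N := 8 * Z)
        (fun l => ⟨(hs r hr l).1, (hs r hr l).2.le⟩)
        (fun l => ⟨(hZ.trans (hzZ l).1).le, (hzZ l).2⟩) i
      have := abs_le.1 this
      constructor <;> nlinarith
    · intro a ha b hb
      obtain ⟨r, hr, rfl⟩ := Finset.mem_image.1 ha
      obtain ⟨r', hr', rfl⟩ := Finset.mem_image.1 hb
      obtain ⟨c, hc, hmc⟩ := hdiff r hr r' hr'
      have h2 : (r ⨯₃ z) i - (r' ⨯₃ z) i = c * w i := by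
        have := congrFun hc i
        rw [map_sub] at this
        simpa using this
      rw [h2, ← hi]
      exact mul_dvd_mul hmc ((abs_dvd _ _).2 dvd_rfl)
  · intro r0 hr0
    have hpar : ∀ r ∈ s.filter (fun r => (r ⨯₃ z) i = (r0 ⨯₃ z) i),
        ∀ r' ∈ s.filter (fun r => (r ⨯₃ z) i = (r0 ⨯₃ z) i), ∃ c : ℤ, r - r' = c • z := by
      intro r hr r' hr'
      rw [Finset.mem_filter] at hr hr'
      obtain ⟨c, hc, -⟩ := hdiff r hr.1 r' hr'.1
      have h2 : (r ⨯₃ z) i - (r' ⨯₃ z) i = c * w i := by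
        have := congrFun hc i
        rw [map_sub] at this
        simpa using this
      rw [hr.2, hr'.2, sub_self] at h2
      have hwi : w i ≠ 0 := by
        intro h; rw [h] at hi; simp at hi; omega
      have hc0 : c = 0 := by
        rcases mul_eq_zero.1 h2.symm with h | h
        · exact h
        · exact absurd h hwi
      rw [hc0, zero_smul] at hc
      exact hz.par hc
    have hz0 : 0 < z 0 := hZ.trans (hzZ 0).1
    rw [← Finset.card_image_of_injOn (f := fun r : V => r 0)]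
    · have h1 := CL ((s.filter (fun r => (r ⨯₃ z) i = (r0 ⨯₃ z) i)).image (fun r : V => r 0))
        0 (8 * Z) (z 0) (by positivity) hz0 ?_ ?_
      · have h2 : (Z : ℝ) < z 0 := by exact_mod_cast (hzZ 0).1
        have h3 : ((8 * Z : ℤ) : ℝ) / z 0 ≤ 8 := by
          rw [div_le_iff₀ (by linarith)]; push_cast; linarith
        linarith
      · intro a ha
        obtain ⟨r, hr, rfl⟩ := Finset.mem_image.1 ha
        simpa using hs r (Finset.mem_filter.1 hr).1 0
      · intro a ha b hb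
        obtain ⟨r, hr, rfl⟩ := Finset.mem_image.1 ha
        obtain ⟨r', hr', rfl⟩ := Finset.mem_image.1 hb
        obtain ⟨c, hc⟩ := hpar r hr r' hr'
        have := congrFun hc 0
        simp only [Pi.sub_apply, Pi.smul_apply, smul_eq_mul] at this
        rw [this]
        exact Dvd.intro_left c rfl
    · intro r hr r' hr' hrr
      obtain ⟨c, hc⟩ := hpar r hr r' hr'
      have := congrFun hc 0
      simp only [Pi.sub_apply, Pi.smul_apply, smul_eq_mul] at this
      have hrr' : r 0 = r' 0 := hrr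
      rw [hrr', sub_self] at this
      have hc0 : c = 0 := by
        rcases mul_eq_zero.1 this.symm with h | h
        · exact h
        · omega
      rw [hc0, zero_smul] at hc
      exact sub_eq_zero.1 hc

end Vale.Agent.P036
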