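import Mathlib

namespace Vale.Agent.P036

open Finset

lemma del_step {α : Type*} [DecidableEq α] (Y : Finset α) (T : Finset (Fin 3 → α))
    (hT : ∀ τ ∈ T, Function.Injective τ ∧ ∀ i, τ i ∈ Y) (hY : Y.Nonempty) :
    ∃ y ∈ Y, ((T.filter (fun τ => ∀ i, τ i ∈ Y.erase y)).card : ℝ) * (Y.card : ℝ) ^ 3
      ≤ T.card * ((Y.card : ℝ) - 1) ^ 3 := by
  have hm : (1 : ℝ) ≤ Y.card := by exact_mod_cast hY.card_pos
  have hsum : ∑ y ∈ Y, ((T.filter (fun τ => ∀ i, τ i ∈ Y.erase y)).card : ℝ)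
      = T.card * ((Y.card : ℝ) - 3) := by
    simp only [Finset.card_filter]
    push_cast
    rw [Finset.sum_comm]
    have : ∀ τ ∈ T, ∑ y ∈ Y, (if (∀ i, τ i ∈ Y.erase y) then (1 : ℝ) else 0)
        = (Y.card : ℝ) - 3 := by
      intro τ hτ
      rw [Finset.sum_boole]
      have e : Y.filter (fun y => ∀ i, τ i ∈ Y.erase y) = Y \ Finset.univ.image τ := by
        ext y
        simp only [Finset.mem_filter, Finset.mem_erase, Finset.mem_sdiff, Finset.mem_image,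
          Finset.mem_univ, true_and, not_exists]
        exact ⟨fun h => ⟨h.1, fun i => (h.2 i).1⟩, fun h => ⟨h.1, fun i => ⟨h.2 i, (hT τ hτ).2 i⟩⟩⟩
      have hsub : Finset.univ.image τ ⊆ Y := by
        intro y hy
        obtain ⟨i, -, rfl⟩ := Finset.mem_image.1 hy
        exact (hT τ hτ).2 i
      rw [e, Finset.cast_card_sdiff hsub, Finset.card_image_of_injective _ (hT τ hτ).1]
      simp
    rw [Finset.sum_congr rfl this, Finset.sum_const, nsmul_eq_mul]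
  obtain ⟨y, hy, h⟩ := Finset.exists_le_of_sum_le hY
    (f := fun y => ((T.filter (fun τ => ∀ i, τ i ∈ Y.erase y)).card : ℝ) * Y.card)
    (g := fun _ => T.card * ((Y.card : ℝ) - 3)) (by
      rw [← Finset.sum_mul, hsum]; simp [mul_comm])
  refine ⟨y, hy, ?_⟩
  have hb : (0 : ℝ) ≤ T.card := by positivity
  generalize ((T.filter (fun τ => ∀ i, τ i ∈ Y.erase y)).card : ℝ) = c at *
  generalize (Y.card : ℝ) = m at *
  generalize (T.card : ℝ) = b at *
  calc c * m ^ 3 = (c * m) * m ^ 2 := by ring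
    _ ≤ (b * (m - 3)) * m ^ 2 := by gcongr
    _ = b * ((m - 3) * m ^ 2) := by ring
    _ ≤ b * (m - 1) ^ 3 := by gcongr; nlinarith

lemma del_sub {α : Type*} [DecidableEq α] (j : ℕ) (d : ℕ) :
    ∀ (Y : Finset α) (T : Finset (Fin 3 → α)),
    (∀ τ ∈ T, Function.Injective τ ∧ ∀ i, τ i ∈ Y) → Y.card = j + d →
    ∃ U ⊆ Y, U.card = j ∧ ((T.filter (fun τ => ∀ i, τ i ∈ U)).card : ℝ) * (Y.card : ℝ) ^ 3
      ≤ T.card * (j : ℝ) ^ 3 := by
  induction d with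
  | zero =>
    intro Y T hT hY
    refine ⟨Y, subset_rfl, hY, ?_⟩
    rw [hY]
    gcongr
    · exact Finset.filter_subset _ _
    · simp
  | succ d ih =>
    intro Y T hT hY
    obtain ⟨y, hy, h⟩ := del_step Y T hT (Finset.card_pos.1 (by omega))
    have hc : (Y.erase y).card = j + d := by rw [Finset.card_erase_of_mem hy]; omega
    obtain ⟨U, hU, hUc, h2⟩ := ih (Y.erase y) (T.filter (fun τ => ∀ i, τ i ∈ Y.erase y))
      (fun τ hτ => ⟨(hT τ (Finset.mem_filter.1 hτ).1).1, (Finset.mem_filter.1 hτ).2⟩) hc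
    refine ⟨U, hU.trans (Finset.erase_subset _ _), hUc, ?_⟩
    have e : (T.filter (fun τ => ∀ i, τ i ∈ Y.erase y)).filter (fun τ => ∀ i, τ i ∈ U)
        = T.filter (fun τ => ∀ i, τ i ∈ U) := by
      ext τ
      simp only [Finset.mem_filter]
      exact ⟨fun h => ⟨h.1.1, h.2⟩, fun h => ⟨⟨h.1, fun i => hU (h.2 i)⟩, h.2⟩⟩
    rw [e, hc] at h2
    rw [hY] at h ⊢
    push_cast at h h2 ⊢
    rcases Nat.eq_zero_or_pos (j + d) with h0 | h0
    · have hj : j = 0 := by omega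
      subst hj
      have : T.filter (fun τ => ∀ i, τ i ∈ U) = ∅ := by
        rw [Finset.card_eq_zero] at hUc
        rw [hUc]
        simp
      rw [this]; simp
    have hpos : (0 : ℝ) < (j : ℝ) + d := by exact_mod_cast h0
    generalize ((T.filter (fun τ => ∀ i, τ i ∈ U)).card : ℝ) = c at *
    generalize ((T.filter (fun τ => ∀ i, τ i ∈ Y.erase y)).card : ℝ) = c' at *
    generalize (T.card : ℝ) = b at *
    have e2 : (j : ℝ) + (d + 1) - 1 = j + d := by ring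
    rw [e2] at h
    apply le_of_mul_le_mul_right _ (pow_pos hpos 3)
    calc c * ((j : ℝ) + (d + 1)) ^ 3 * (j + d) ^ 3 = (c * (j + d) ^ 3) * (j + (d + 1)) ^ 3 := by ring
      _ ≤ (c' * j ^ 3) * (j + (d + 1)) ^ 3 := by gcongr
      _ = (c' * (j + (d + 1)) ^ 3) * j ^ 3 := by ring
      _ ≤ (b * (j + d) ^ 3) * j ^ 3 := by gcongr
      _ = _ := by ring

lemma deletion {α : Type*} [DecidableEq α] (X : Finset α) (T : Finset (Fin 3 → α))
    (hT : ∀ τ ∈ T, Function.Injective τ ∧ ∀ i, τ i ∈ X) (n : ℕ) (hn : 0 < n)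
    (h1 : 2 * n ≤ X.card) (h2 : 8 * (T.card : ℝ) * n ^ 2 ≤ (X.card : ℝ) ^ 3) :
    ∃ U ⊆ X, U.card = n ∧ ∀ τ ∈ T, ¬ ∀ i, τ i ∈ U := by
  obtain ⟨U, hU, hUc, h⟩ := del_sub (2 * n) (X.card - 2 * n) X T hT (by omega)
  set T' := T.filter (fun τ => ∀ i, τ i ∈ U) with hT'
  have hX : (0 : ℝ) < X.card := by exact_mod_cast (by omega : 0 < X.card)
  have hc : T'.card ≤ n := by
    have : (T'.card : ℝ) * (X.card : ℝ) ^ 3 ≤ n * (X.card : ℝ) ^ 3 := by
      push_cast at h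
      calc _ ≤ _ := h
        _ = n * (8 * (T.card : ℝ) * n ^ 2) := by ring
        _ ≤ _ := by gcongr
    exact_mod_cast le_of_mul_le_mul_right this (pow_pos hX 3)
  have h3 : n ≤ (U \ T'.image (fun τ => τ 0)).card := by
    have a := Finset.le_card_sdiff (T'.image (fun τ => τ 0)) U
    have b : (T'.image (fun τ => τ 0)).card ≤ T'.card := Finset.card_image_le
    omega
  obtain ⟨U', hU', hc'⟩ := Finset.exists_subset_card_eq h3
  refine ⟨U', hU'.trans (Finset.sdiff_subset.trans hU), hc', ?_⟩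
  intro τ hτ hall
  have h4 : τ ∈ T' := Finset.mem_filter.2 ⟨hτ, fun i => (Finset.mem_sdiff.1 (hU' (hall i))).1⟩
  exact (Finset.mem_sdiff.1 (hU' (hall 0))).2 (Finset.mem_image_of_mem _ h4)

lemma averaging {β : Type*} (Ω : Finset β) (m b : β → ℝ) (m0 b0 O n : ℝ) (hm0 : 0 < m0)
    (hb0 : 0 < b0) (hO : 0 < O) (hΩ : (Ω.card : ℝ) ≤ O) (hb : ∀ ω, 0 ≤ b ω)
    (hm : m0 * O ≤ ∑ ω ∈ Ω, m ω) (hbs : ∑ ω ∈ Ω, b ω ≤ b0 * O)
    (h1 : 4 * n ≤ m0) (h2 : 64 * n ^ 2 * b0 ≤ m0 ^ 3) :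
    ∃ ω ∈ Ω, 2 * n ≤ m ω ∧ 8 * b ω * n ^ 2 ≤ m ω ^ 3 := by
  have hne : Ω.Nonempty := by
    rcases Ω.eq_empty_or_nonempty with h | h
    · rw [h] at hm; simp at hm; nlinarith
    · exact h
  obtain ⟨ω, hω, h⟩ := Finset.exists_le_of_sum_le hne (f := fun _ => m0 * b0)
    (g := fun ω => 2 * b0 * m ω - m0 * b ω) (by
      rw [Finset.sum_const, nsmul_eq_mul, Finset.sum_sub_distrib, ← Finset.mul_sum,
        ← Finset.mul_sum]
      have a1 : 2 * b0 * (m0 * O) ≤ 2 * b0 * ∑ ω ∈ Ω, m ω := by gcongr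
      have a2 : m0 * ∑ ω ∈ Ω, b ω ≤ m0 * (b0 * O) := by gcongr
      have a3 : (Ω.card : ℝ) * (m0 * b0) ≤ O * (m0 * b0) := by gcongr
      linarith)
  have hbω := hb ω
  have a1 : m0 / 2 ≤ m ω := by
    have : b0 * m0 ≤ b0 * (2 * m ω) := by nlinarith
    have := le_of_mul_le_mul_left this hb0
    linarith
  refine ⟨ω, hω, by linarith, ?_⟩
  have a2 : m0 * b ω ≤ 2 * b0 * m ω := by nlinarith
  have hmω : 0 < m ω := by linarith
  apply le_of_mul_le_mul_left _ hm0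
  calc m0 * (8 * b ω * n ^ 2) = 8 * n ^ 2 * (m0 * b ω) := by ring
    _ ≤ 8 * n ^ 2 * (2 * b0 * m ω) := by gcongr
    _ = (64 * n ^ 2 * b0) / 4 * m ω := by ring
    _ ≤ m0 ^ 3 / 4 * m ω := by gcongr
    _ = m0 * ((m0 / 2) ^ 2 * m ω) := by ring
    _ ≤ m0 * ((m ω) ^ 2 * m ω) := by gcongr
    _ = _ := by ring

lemma dcount {α β γ : Type*} (A : Finset α) (B : Finset β) (X : Finset γ)
    (R1 : α → γ → Prop) (R2 : β → γ → Prop) [∀ a x, Decidable (R1 a x)]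
    [∀ a x, Decidable (R2 a x)] :
    ∑ ω ∈ A ×ˢ B, ((X.filter (fun x => R1 ω.1 x ∧ R2 ω.2 x)).card : ℝ)
      = ∑ x ∈ X, ((A.filter (fun a => R1 a x)).card : ℝ) * (B.filter (fun b => R2 b x)).card := by
  simp only [Finset.card_filter]
  push_cast
  rw [Finset.sum_comm]
  apply Finset.sum_congr rfl
  intro x _
  rw [Finset.sum_product, Finset.sum_mul_sum]
  apply Finset.sum_congr rfl
  intro a _
  apply Finset.sum_congr rfl
  intro b _
  by_cases h1 : R1 a x <;> by_cases h2 : R2 b x <;> simp [h1, h2]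

lemma sum_le_support {α : Type*} (X : Finset α) (c : α → ℕ) (K A : ℝ) (hK : 0 ≤ K)
    (h1 : ∀ x ∈ X, (c x : ℝ) ≤ K) (h2 : ((X.filter (fun x => c x ≠ 0)).card : ℝ) ≤ A) :
    ∑ x ∈ X, (c x : ℝ) ≤ K * A := by
  rw [← Finset.sum_filter_of_ne (p := fun x => c x ≠ 0) (fun x _ h => by exact_mod_cast h)]
  calc _ ≤ ∑ _x ∈ X.filter (fun x => c x ≠ 0), K :=
        Finset.sum_le_sum fun x hx => h1 x (Finset.mem_filter.1 hx).1
    _ = K * (X.filter (fun x => c x ≠ 0)).card := by simp [mul_comm]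
    _ ≤ K * A := by gcongr

end Vale.Agent.P036
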