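import Vale.Agent.P036.Count

namespace Vale.Agent.P036

open Finset Matrix

section
variable {F : Type*} [Field F] [Fintype F] [DecidableEq F]

lemma lin_le (u : Fin 3 → F) (d : F) (h : u ≠ 0 ∨ d ≠ 0) :
    (Finset.univ.filter (fun r : Fin 3 → F => u ⬝ᵥ r = d)).card ≤ Fintype.card F ^ 2 := by
  by_cases hu : u = 0
  · have hd : d ≠ 0 := h.resolve_left (fun h => h hu)
    rw [Finset.filter_false_of_mem]
    · simp
    · intro r _; rw [hu]; simpa using hd.symm
  obtain ⟨i, hi⟩ := Function.ne_iff.1 hu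
  have : Fintype.card F ^ 2 = (Finset.univ : Finset (F × F)).card := by simp [sq]
  rw [this]
  apply Finset.card_le_card_of_injOn (fun r => (r (i + 1), r (i + 2))) (by simp)
  intro r hr r' hr' hrr
  simp only [Finset.coe_filter, Finset.mem_univ, true_and, Set.mem_ofPred_eq, Prod.mk.injEq]
    at hr hr' hrr
  rw [dot_rot i] at hr hr'
  have h0 : r i = r' i := by
    apply mul_left_cancel₀ hi
    linear_combination hr - hr' - u (i + 1) * hrr.1 - u (i + 2) * hrr.2
  funext l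
  fin_cases i <;> fin_cases l <;> simp_all

lemma lin_ge (u : Fin 3 → F) (d : F) (h : u ≠ 0) :
    Fintype.card F ^ 2 ≤ (Finset.univ.filter (fun r : Fin 3 → F => u ⬝ᵥ r = d)).card := by
  by_contra hlt
  have h1 : (Finset.univ : Finset (Fin 3 → F)).card = ∑ e ∈ (Finset.univ : Finset F),
      (Finset.univ.filter (fun r : Fin 3 → F => u ⬝ᵥ r = e)).card :=
    Finset.card_eq_sum_card_fiberwise (fun _ _ => Finset.mem_univ _)
  have h2 : ∑ e ∈ (Finset.univ : Finset F),
      (Finset.univ.filter (fun r : Fin 3 → F => u ⬝ᵥ r = e)).card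
      < ∑ _e ∈ (Finset.univ : Finset F), Fintype.card F ^ 2 :=
    Finset.sum_lt_sum (fun e _ => lin_le u e (Or.inl h)) ⟨d, Finset.mem_univ _, not_le.1 hlt⟩
  rw [← h1] at h2
  simp at h2
  rw [← pow_succ'] at h2
  exact lt_irrefl _ h2

lemma det3 {R : Type*} [CommRing R] (M : Matrix (Fin 3) (Fin 3) R) :
    M.det = (M 0 ⨯₃ M 1) ⬝ᵥ M 2 := by
  rw [Matrix.det_fin_three]
  simp [cross_apply, dotProduct, Fin.sum_univ_three]
  ring

lemma rows2_le (a b : Fin 3 → F) (d : F) (hd : d ≠ 0) :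
    (Finset.univ.filter (fun M : Matrix (Fin 3) (Fin 3) F =>
      M.det = d ∧ M 0 = a ∧ M 1 = b)).card ≤ Fintype.card F ^ 2 := by
  refine le_trans ?_ (lin_le (a ⨯₃ b) d (Or.inr hd))
  apply Finset.card_le_card_of_injOn (fun M => M 2)
  · intro M hM
    simp only [Finset.coe_filter, Finset.mem_univ, true_and, Set.mem_ofPred_eq] at hM ⊢
    rw [← hM.1, det3, hM.2.1, hM.2.2]
  · intro M hM M' hM' h
    simp only [Finset.coe_filter, Finset.mem_univ, true_and, Set.mem_ofPred_eq] at hM hM' h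
    funext i
    fin_cases i
    · exact hM.2.1.trans hM'.2.1.symm
    · exact hM.2.2.trans hM'.2.2.symm
    · exact h

lemma rows2_ge (a b : Fin 3 → F) (d : F) (h : a ⨯₃ b ≠ 0) :
    Fintype.card F ^ 2 ≤ (Finset.univ.filter (fun M : Matrix (Fin 3) (Fin 3) F =>
      M.det = d ∧ M 0 = a ∧ M 1 = b)).card := by
  refine le_trans (lin_ge (a ⨯₃ b) d h) ?_
  apply Finset.card_le_card_of_injOn (fun r => Matrix.of ![a, b, r])
  · intro r hr
    simp only [Finset.coe_filter, Finset.mem_univ, true_and, Set.mem_ofPred_eq] at hr ⊢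
    refine ⟨?_, rfl, rfl⟩
    rw [det3]; exact hr
  · intro r _ r' _ h
    exact congrFun h 2

lemma rows1_sum (a : Fin 3 → F) (d : F) :
    (Finset.univ.filter (fun M : Matrix (Fin 3) (Fin 3) F => M.det = d ∧ M 0 = a)).card
    = ∑ b : Fin 3 → F, (Finset.univ.filter (fun M : Matrix (Fin 3) (Fin 3) F =>
      M.det = d ∧ M 0 = a ∧ M 1 = b)).card := by
  rw [Finset.card_eq_sum_card_fiberwise (f := fun M => M 1) (t := Finset.univ)
    (fun _ _ => Finset.mem_univ _)]
  apply Finset.sum_congr rfl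
  intro b _
  rw [Finset.filter_filter]
  simp only [and_assoc]

lemma rows1_le (a : Fin 3 → F) (d : F) (hd : d ≠ 0) :
    (Finset.univ.filter (fun M : Matrix (Fin 3) (Fin 3) F => M.det = d ∧ M 0 = a)).card
      ≤ Fintype.card F ^ 5 := by
  rw [rows1_sum]
  calc _ ≤ ∑ _b : Fin 3 → F, Fintype.card F ^ 2 := Finset.sum_le_sum fun b _ => rows2_le a b d hd
    _ = _ := by simp; ring

omit [Fintype F] [DecidableEq F] in
lemma par_of_cross {u v : Fin 3 → F} (h : u ⨯₃ v = 0) (hu : u ≠ 0) : ∃ c : F, v = c • u := by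
  obtain ⟨i, hi⟩ := Function.ne_iff.1 hu
  have hi' : u i ≠ 0 := hi
  refine ⟨v i / u i, ?_⟩
  have h0 := congrFun h 0
  have h1 := congrFun h 1
  have h2 := congrFun h 2
  simp only [cross_apply] at h0 h1 h2
  simp at h0 h1 h2
  funext l
  simp only [Pi.smul_apply, smul_eq_mul]
  field_simp
  fin_cases i <;> fin_cases l <;> simp <;>
    first
    | linear_combination h0 | linear_combination h1 | linear_combination h2
    | linear_combination -h0 | linear_combination -h1 | linear_combination -h2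

lemma card_cross_zero (a : Fin 3 → F) (ha : a ≠ 0) :
    (Finset.univ.filter (fun b : Fin 3 → F => a ⨯₃ b = 0)).card ≤ Fintype.card F := by
  calc _ ≤ (Finset.univ.image (fun c : F => c • a)).card := by
        apply Finset.card_le_card
        intro b hb
        obtain ⟨c, hc⟩ := par_of_cross (Finset.mem_filter.1 hb).2 ha
        exact Finset.mem_image.2 ⟨c, Finset.mem_univ _, hc.symm⟩
    _ ≤ _ := Finset.card_image_le

lemma rows1_ge (a : Fin 3 → F) (ha : a ≠ 0) (d : F) :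
    Fintype.card F ^ 5 ≤ 2 *
    (Finset.univ.filter (fun M : Matrix (Fin 3) (Fin 3) F => M.det = d ∧ M 0 = a)).card := by
  rw [rows1_sum]
  have h1 := card_cross_zero a ha
  have h2 := Finset.card_filter_add_card_filter_not (s := (Finset.univ : Finset (Fin 3 → F)))
    (fun b : Fin 3 → F => a ⨯₃ b = 0)
  have h3 : (Finset.univ.filter (fun b : Fin 3 → F => ¬ a ⨯₃ b = 0)).card * Fintype.card F ^ 2
      ≤ ∑ b : Fin 3 → F, (Finset.univ.filter (fun M : Matrix (Fin 3) (Fin 3) F =>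
      M.det = d ∧ M 0 = a ∧ M 1 = b)).card := by
    calc _ = ∑ _b ∈ (Finset.univ.filter (fun b : Fin 3 → F => ¬ a ⨯₃ b = 0)),
          Fintype.card F ^ 2 := by simp
      _ ≤ ∑ b ∈ (Finset.univ.filter (fun b : Fin 3 → F => ¬ a ⨯₃ b = 0)),
          (Finset.univ.filter (fun M : Matrix (Fin 3) (Fin 3) F =>
            M.det = d ∧ M 0 = a ∧ M 1 = b)).card :=
          Finset.sum_le_sum fun b hb => rows2_ge a b d (Finset.mem_filter.1 hb).2
      _ ≤ _ := Finset.sum_le_sum_of_subset (Finset.subset_univ _)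
  have h4 : (Finset.univ : Finset (Fin 3 → F)).card = Fintype.card F ^ 3 := by simp
  have h5 : 2 ≤ Fintype.card F := Fintype.one_lt_card
  rw [h4] at h2
  generalize Fintype.card F = q at *
  generalize (Finset.univ.filter (fun b : Fin 3 → F => ¬ a ⨯₃ b = 0)).card = x at *
  have h6 : q ^ 3 ≤ 2 * x := by
    have : 2 * q ≤ q ^ 3 := by
      calc 2 * q ≤ (q * q) * q := by gcongr; nlinarith
        _ = q ^ 3 := by ring
    omega
  calc q ^ 5 = q ^ 3 * q ^ 2 := by ring
    _ ≤ 2 * x * q ^ 2 := by gcongr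
    _ = 2 * (x * q ^ 2) := by ring
    _ ≤ _ := by gcongr

variable (F) in
/-- matrices of determinant one -/
def Gp : Finset (Matrix (Fin 3) (Fin 3) F) := Finset.univ.filter (fun g => g.det = 1)

lemma mem_Gp {g : Matrix (Fin 3) (Fin 3) F} : g ∈ Gp F ↔ g.det = 1 := by simp [Gp]

lemma card_Gp : (Gp F).card ≤ Fintype.card F ^ 8 := by
  rw [Finset.card_eq_sum_card_fiberwise (f := fun M => M 0) (t := Finset.univ)
    (fun _ _ => Finset.mem_univ _)]
  calc _ ≤ ∑ _a : Fin 3 → F, Fintype.card F ^ 5 := Finset.sum_le_sum fun a _ => by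
        rw [Gp, Finset.filter_filter]
        exact rows1_le a 1 one_ne_zero
    _ = _ := by simp; ring

lemma transfer (N : Matrix (Fin 3) (Fin 3) F) (hN : N.det ≠ 0)
    (P : Matrix (Fin 3) (Fin 3) F → Prop) [DecidablePred P] :
    ((Gp F).filter (fun g => P (N * g))).card
      = (Finset.univ.filter (fun M => M.det = N.det ∧ P M)).card := by
  have hu : IsUnit N.det := isUnit_iff_ne_zero.2 hN
  apply Finset.card_nbij' (fun g => N * g) (fun M => N⁻¹ * M)
  · intro g hg
    simp only [Finset.coe_filter, mem_Gp, Finset.mem_univ, true_and, Set.mem_ofPred_eq] at hg ⊢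
    exact ⟨by rw [Matrix.det_mul, hg.1, mul_one], hg.2⟩
  · intro M hM
    simp only [Finset.coe_filter, mem_Gp, Finset.mem_univ, true_and, Set.mem_ofPred_eq] at hM ⊢
    refine ⟨?_, ?_⟩
    · rw [Matrix.det_mul, hM.1, Matrix.det_nonsing_inv_mul_det _ hu]
    · rw [Matrix.mul_nonsing_inv_cancel_left _ _ hu]; exact hM.2
  · intro g _
    exact Matrix.nonsing_inv_mul_cancel_left _ _ hu
  · intro g _
    exact Matrix.mul_nonsing_inv_cancel_left _ _ hu

omit [Fintype F] [DecidableEq F] in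
lemma ext2 {s s' : Fin 3 → F} (h : s ⨯₃ s' ≠ 0) :
    ∃ N : Matrix (Fin 3) (Fin 3) F, N.det ≠ 0 ∧ N 0 = s ∧ N 1 = s' := by
  obtain ⟨i, hi⟩ := Function.ne_iff.1 h
  refine ⟨Matrix.of ![s, s', Pi.single i 1], ?_, rfl, rfl⟩
  rw [det3]
  change (s ⨯₃ s') ⬝ᵥ Pi.single i 1 ≠ 0
  simpa using hi

lemma ext1 {s : Fin 3 → F} (h : s ≠ 0) : ∃ N : Matrix (Fin 3) (Fin 3) F, N.det ≠ 0 ∧ N 0 = s := by
  have h1 := card_cross_zero s h
  have : ∃ s', s ⨯₃ s' ≠ 0 := by
    by_contra hcon
    push Not at hcon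
    rw [Finset.filter_true_of_mem (fun b _ => hcon b)] at h1
    have h5 : 2 ≤ Fintype.card F := Fintype.one_lt_card
    simp at h1
    have : Fintype.card F ^ 1 < Fintype.card F ^ 3 := pow_lt_pow_right₀ (by omega) (by norm_num)
    rw [pow_one] at this
    omega
  obtain ⟨s', hs'⟩ := this
  obtain ⟨N, h1, h2, -⟩ := ext2 hs'
  exact ⟨N, h1, h2⟩

omit [Fintype F] [DecidableEq F] in
lemma mul_row (N g : Matrix (Fin 3) (Fin 3) F) (i : Fin 3) : (N * g) i = N i ᵥ* g := by
  funext j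
  simp [Matrix.mul_apply, Matrix.vecMul, dotProduct]

lemma G1_le {s : Fin 3 → F} (h : s ≠ 0) (v : Fin 3 → F) :
    ((Gp F).filter (fun g => s ᵥ* g = v)).card ≤ Fintype.card F ^ 5 := by
  obtain ⟨N, hN, rfl⟩ := ext1 h
  have := transfer N hN (fun M => M 0 = v)
  simp only [mul_row] at this
  rw [this]
  exact rows1_le v _ hN

lemma G1_ge {s : Fin 3 → F} (h : s ≠ 0) {v : Fin 3 → F} (hv : v ≠ 0) :
    Fintype.card F ^ 5 ≤ 2 * ((Gp F).filter (fun g => s ᵥ* g = v)).card := by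
  obtain ⟨N, hN, rfl⟩ := ext1 h
  have := transfer N hN (fun M => M 0 = v)
  simp only [mul_row] at this
  rw [this]
  exact rows1_ge v hv _

lemma G2_le {s s' : Fin 3 → F} (h : s ⨯₃ s' ≠ 0) (v v' : Fin 3 → F) :
    ((Gp F).filter (fun g => s ᵥ* g = v ∧ s' ᵥ* g = v')).card ≤ Fintype.card F ^ 2 := by
  obtain ⟨N, hN, rfl, rfl⟩ := ext2 h
  have := transfer N hN (fun M => M 0 = v ∧ M 1 = v')
  simp only [mul_row] at this
  rw [this]
  exact rows2_le v v' _ hN

lemma G3_le (σ M : Matrix (Fin 3) (Fin 3) F) (h : M.det ≠ 0) :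
    ((Gp F).filter (fun g => σ * g = M)).card ≤ 1 := by
  rw [Finset.card_le_one]
  intro g hg g' hg'
  simp only [Finset.mem_filter, mem_Gp] at hg hg'
  have h1 : σ.det ≠ 0 := by
    rw [← hg.2, Matrix.det_mul, hg.1, mul_one] at h; exact h
  have hu : IsUnit σ.det := isUnit_iff_ne_zero.2 h1
  rw [← Matrix.nonsing_inv_mul_cancel_left σ g hu, hg.2, ← hg'.2,
    Matrix.nonsing_inv_mul_cancel_left σ g' hu]

lemma vecMul_inj {g : Matrix (Fin 3) (Fin 3) F} (hg : g ∈ Gp F) {u v : Fin 3 → F}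
    (h : u ᵥ* g = v ᵥ* g) : u = v := by
  have hu : IsUnit g.det := by rw [mem_Gp.1 hg]; exact isUnit_one
  have := congrArg (fun w => w ᵥ* g⁻¹) h
  simpa [Matrix.vecMul_vecMul, Matrix.mul_nonsing_inv _ hu] using this

omit [Fintype F] [DecidableEq F] in
lemma rel2 {s t r : Fin 3 → F} (h : s ⨯₃ t ≠ 0) {a b c a' b' c' : F}
    (h1 : a • s + b • t + c • r = 0) (h2 : a' • s + b' • t + c' • r = 0) :
    c * a' = c' * a ∧ c * b' = c' * b ∧ a * b' = a' * b := by
  have key : ∀ x y : F, x • s + y • t = 0 → x = 0 ∧ y = 0 := by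
    intro x y hxy
    have e1 := congrArg (fun w => w ⨯₃ t) hxy
    have e2 := congrArg (fun w => s ⨯₃ w) hxy
    simp only [map_add, map_smul, LinearMap.add_apply, LinearMap.smul_apply, cross_self,
      smul_zero, add_zero, zero_add, map_zero, LinearMap.zero_apply] at e1 e2
    exact ⟨(smul_eq_zero.1 e1).resolve_right h, (smul_eq_zero.1 e2).resolve_right h⟩
  have k1 := key (c * a' - c' * a) (c * b' - c' * b) (by
    linear_combination (norm := module) c • h2 - c' • h1)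
  refine ⟨sub_eq_zero.1 k1.1, sub_eq_zero.1 k1.2, ?_⟩
  by_cases hc : c = 0
  · have k2 := key a b (by simpa [hc] using h1)
    rw [k2.1, k2.2]; ring
  · apply mul_left_cancel₀ hc
    linear_combination a * k1.2 - b * k1.1

/-- the quadric surface condition -/
def cap (ν : F) (a : Fin 4 → F) (v : Fin 3 → F) : Prop :=
  v 1 = a 0 * (v 0 ^ 2 - ν * v 2 ^ 2) + a 1 * v 0 + a 2 * v 2 + a 3

instance (ν : F) (a : Fin 4 → F) (v : Fin 3 → F) : Decidable (cap ν a v) := by
  unfold cap; infer_instance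

variable (F) in
/-- admissible coefficient vectors -/
def Ac : Finset (Fin 4 → F) := Finset.univ.filter (fun a => a 0 ≠ 0)

lemma card_Ac : (Ac F).card ≤ Fintype.card F ^ 4 :=
  (Finset.card_filter_le _ _).trans (by simp)

lemma cap1_ge (ν : F) (v : Fin 3 → F) :
    Fintype.card F ^ 3 ≤ 2 * ((Ac F).filter (fun a => cap ν a v)).card := by
  have h1 : ((Finset.univ.erase (0 : F)) ×ˢ (Finset.univ : Finset (F × F))).card
      ≤ ((Ac F).filter (fun a => cap ν a v)).card := by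
    apply Finset.card_le_card_of_injOn (fun p => ![p.1, p.2.1, p.2.2,
      v 1 - (p.1 * (v 0 ^ 2 - ν * v 2 ^ 2) + p.2.1 * v 0 + p.2.2 * v 2)])
    · intro p hp
      simp [Ac, cap] at hp ⊢
      exact hp
    · intro p _ p' _ h
      have h0 := congrFun h 0
      have h1 := congrFun h 1
      have h2 := congrFun h 2
      simp at h0 h1 h2
      exact Prod.ext h0 (Prod.ext h1 h2)
  have h5 : 2 ≤ Fintype.card F := Fintype.one_lt_card
  simp only [Finset.card_product, Finset.card_erase_of_mem (Finset.mem_univ _), Finset.card_univ,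
    Fintype.card_prod] at h1
  obtain ⟨q, hq⟩ : ∃ q, Fintype.card F = q + 1 := ⟨Fintype.card F - 1, by omega⟩
  rw [hq] at h1 h5 ⊢
  simp only [Nat.add_sub_cancel] at h1
  calc (q + 1) ^ 3 = (q + 1) * ((q + 1) * (q + 1)) := by ring
    _ ≤ (2 * q) * ((q + 1) * (q + 1)) := by gcongr; omega
    _ = 2 * (q * ((q + 1) * (q + 1))) := by ring
    _ ≤ _ := by gcongr

omit [Fintype F] [DecidableEq F] in
lemma keyK0 {ν : F} (hν : ¬ IsSquare ν) {w0 w1 w2 x0 x1 x2 z0 z1 z2 : F}
    (h1 : w0 + w1 + w2 = 0) (hx : w0 * x0 + w1 * x1 + w2 * x2 = 0)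
    (hz : w0 * z0 + w1 * z1 + w2 * z2 = 0)
    (hQ : w0 * (x0 ^ 2 - ν * z0 ^ 2) + w1 * (x1 ^ 2 - ν * z1 ^ 2) + w2 * (x2 ^ 2 - ν * z2 ^ 2) = 0)
    (hne : ¬ (x0 = x1 ∧ z0 = z1)) : w0 * w1 = 0 := by
  have hq : (x1 - x0) ^ 2 - ν * (z1 - z0) ^ 2 ≠ 0 := by
    intro h
    by_cases hz0 : z1 - z0 = 0
    · rw [hz0] at h
      have : (x1 - x0) ^ 2 = 0 := by linear_combination h
      exact hne ⟨(sub_eq_zero.1 (pow_eq_zero_iff two_ne_zero |>.1 this)).symm,
        (sub_eq_zero.1 hz0).symm⟩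
    · apply hν
      refine ⟨(x1 - x0) / (z1 - z0), ?_⟩
      field_simp
      linear_combination -h
  have : w0 * w1 * ((x1 - x0) ^ 2 - ν * (z1 - z0) ^ 2) = 0 := by
    linear_combination w1 * ((x1 - x0) ^ 2 - ν * (z1 - z0) ^ 2) * h1
      - w2 * (hQ - 2 * x0 * hx + 2 * ν * z0 * hz + (x0 ^ 2 - ν * z0 ^ 2) * h1)
      + (w2 * (x2 - x0) - w1 * (x1 - x0)) * (hx - x0 * h1)
      - ν * (w2 * (z2 - z0) - w1 * (z1 - z0)) * (hz - z0 * h1)
  exact (mul_eq_zero.1 this).resolve_right hq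

omit [Fintype F] [DecidableEq F] in
lemma keyK {ν : F} (hν : ¬ IsSquare ν) (v : Fin 3 → Fin 3 → F) (w : Fin 3 → F)
    (hne : ∀ i j, i ≠ j → ¬ (v i 0 = v j 0 ∧ v i 2 = v j 2))
    (h1 : w 0 + w 1 + w 2 = 0) (hx : w 0 * v 0 0 + w 1 * v 1 0 + w 2 * v 2 0 = 0)
    (hz : w 0 * v 0 2 + w 1 * v 1 2 + w 2 * v 2 2 = 0)
    (hQ : w 0 * (v 0 0 ^ 2 - ν * v 0 2 ^ 2) + w 1 * (v 1 0 ^ 2 - ν * v 1 2 ^ 2)
      + w 2 * (v 2 0 ^ 2 - ν * v 2 2 ^ 2) = 0) : w = 0 := by
  have a := keyK0 hν h1 hx hz hQ (hne 0 1 (by decide))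
  have b : w 0 * w 2 = 0 := keyK0 (w2 := w 1) (x2 := v 1 0) (z2 := v 1 2) hν
    (by linear_combination h1) (by linear_combination hx)
    (by linear_combination hz) (by linear_combination hQ) (hne 0 2 (by decide))
  have c : w 1 * w 2 = 0 := keyK0 (w2 := w 0) (x2 := v 0 0) (z2 := v 0 2) hν
    (by linear_combination h1) (by linear_combination hx)
    (by linear_combination hz) (by linear_combination hQ) (hne 1 2 (by decide))
  have h0 : w 0 = 0 := pow_eq_zero_iff two_ne_zero |>.1 (by linear_combination w 0 * h1 - a - b)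
  have h1' : w 1 = 0 := pow_eq_zero_iff two_ne_zero |>.1 (by linear_combination w 1 * h1 - a - c)
  have h2 : w 2 = 0 := by linear_combination h1 - h0 - h1'
  funext i
  fin_cases i <;> assumption

omit [Fintype F] [DecidableEq F] in
lemma cap_distinct {ν : F} {a : Fin 4 → F} {v : Fin 3 → Fin 3 → F} (hv : Function.Injective v)
    (hc : ∀ i, cap ν a (v i)) : ∀ i j, i ≠ j → ¬ (v i 0 = v j 0 ∧ v i 2 = v j 2) := by
  rintro i j hij ⟨h0, h2⟩
  apply hij
  apply hv
  have h1 : v i 1 = v j 1 := by rw [hc i, hc j, h0, h2]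
  funext l
  fin_cases l <;> assumption

lemma cap_kill {ν : F} (hν : ¬ IsSquare ν) {a : Fin 4 → F} (ha : a ∈ Ac F)
    {v : Fin 3 → Fin 3 → F} (hv : Function.Injective v) (hc : ∀ i, cap ν a (v i))
    (w : Fin 3 → F) (h1 : w 0 + w 1 + w 2 = 0)
    (hr : ∀ l, w 0 * v 0 l + w 1 * v 1 l + w 2 * v 2 l = 0) : w = 0 := by
  apply keyK hν v w (cap_distinct hv hc) h1 (hr 0) (hr 2)
  have ha0 : a 0 ≠ 0 := by simpa [Ac] using ha
  apply mul_left_cancel₀ ha0
  have c0 := hc 0
  have c1 := hc 1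
  have c2 := hc 2
  unfold cap at c0 c1 c2
  linear_combination hr 1 - w 0 * c0 - w 1 * c1 - w 2 * c2 - a 1 * hr 0 - a 2 * hr 2 - a 3 * h1

lemma cap3_le {ν : F} (hν : ¬ IsSquare ν) {v : Fin 3 → Fin 3 → F} (hv : Function.Injective v) :
    ((Ac F).filter (fun a => ∀ i, cap ν a (v i))).card ≤ Fintype.card F := by
  rcases ((Ac F).filter (fun a => ∀ i, cap ν a (v i))).eq_empty_or_nonempty with h | ⟨a0, ha0⟩
  · rw [h]; simp
  have hne := cap_distinct hv (Finset.mem_filter.1 ha0).2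
  let M : Matrix (Fin 3) (Fin 4) F :=
    Matrix.of fun i => ![v i 0 ^ 2 - ν * v i 2 ^ 2, v i 0, v i 2, 1]
  have hli : LinearIndependent F M.row := by
    rw [Fintype.linearIndependent_iff]
    intro w hw
    have e0 := congrFun hw 0
    have e1 := congrFun hw 1
    have e2 := congrFun hw 2
    have e3 := congrFun hw 3
    simp [M, Fin.sum_univ_three, Matrix.row] at e0 e1 e2 e3
    have := keyK hν v w hne e3 e1 e2 e0
    intro i; rw [this]; rfl
  have hr : M.rank = 3 := by simpa using hli.rank_matrix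
  have hk : Module.finrank F (LinearMap.ker M.mulVecLin) = 1 := by
    have := LinearMap.finrank_range_add_finrank_ker M.mulVecLin
    rw [Matrix.rank] at hr
    simp only [Module.finrank_fintype_fun_eq_card, Fintype.card_fin] at this
    omega
  classical
  have hc : Fintype.card (LinearMap.ker M.mulVecLin) = Fintype.card F := by
    rw [Module.card_eq_pow_finrank (K := F), hk, pow_one]
  rw [← hc, Fintype.card_subtype]
  apply Finset.card_le_card_of_injOn (fun a => a - a0)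
  · intro a ha
    simp only [Finset.coe_filter, Finset.mem_univ, true_and, Set.mem_ofPred_eq,
      LinearMap.mem_ker, Matrix.mulVecLin_apply] at ha ⊢
    funext i
    have c1 := ha.2 i
    have c2 := (Finset.mem_filter.1 ha0).2 i
    unfold cap at c1 c2
    simp [M, Matrix.mulVec, dotProduct, Fin.sum_univ_four]
    linear_combination c2 - c1
  · intro a _ a' _ h
    exact sub_left_injective h

end

end Vale.Agent.P036
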