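import Vale.Agent.P036.Pairs
import Vale.Agent.P036.Group
import Vale.Agent.P036.Delete

namespace Vale.Agent.P036

open Finset Matrix

/-- reduction of an integer vector -/
def red (n : ℕ) (v : V) : Fin 3 → ZMod n := fun i => (v i : ZMod n)

/-- a column of a triple of points -/
def col (M : Fin 3 → V) (j : Fin 3) : V := fun i => M i j

/-- determinant of a triple of points -/
def dt (M : Fin 3 → V) : ℤ := col M 0 ⬝ᵥ (col M 1 ⨯₃ col M 2)

/-- the three columns -/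
def cols (M : Fin 3 → V) : V × V × V := (col M 0, col M 1, col M 2)

lemma cols_inj : Function.Injective cols := by
  intro M M' h
  simp only [cols, Prod.mk.injEq] at h
  funext i j
  fin_cases j
  · exact congrFun h.1 i
  · exact congrFun h.2.1 i
  · exact congrFun h.2.2 i

lemma dt_red (n : ℕ) (M : Fin 3 → V) :
    (Matrix.of fun i => red n (M i)).det = (dt M : ZMod n) := by
  rw [Matrix.det_fin_three]
  simp [dt, col, red, cross_apply, dotProduct, Fin.sum_univ_three]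
  ring

/-- a point of the ground set -/
def IsPt (Z : ℤ) (v : V) : Prop :=
  (0 ≤ v 0 ∧ v 0 < 8 * Z) ∧ (0 ≤ v 1 ∧ v 1 < 8 * Z) ∧ Prime (v 2) ∧ Z < v 2 ∧ v 2 ≤ 8 * Z

/-- no relation with zero sum -/
def NoSZ (M : Fin 3 → V) : Prop :=
  ∀ w, Prim w → w ⬝ᵥ col M 0 = 0 → w ⬝ᵥ col M 1 = 0 → w ⬝ᵥ col M 2 = 0 → w 0 + w 1 + w 2 ≠ 0

lemma cop_of_primes {a b : ℤ} (ha : Prime a) (hb : Prime b) (ha0 : 0 < a) (hb0 : 0 < b)
    (h : a ≠ b) : IsCoprime a b := by
  rw [ha.irreducible.coprime_iff_not_dvd]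
  intro hd
  apply h
  exact Int.eq_of_associated_of_nonneg ((ha.dvd_prime_iff_associated hb).1 hd) ha0.le hb0.le

lemma prim_of_primes {z : V} (hz : ∀ l, Prime (z l) ∧ 0 < z l) (h : ¬ (z 0 = z 1 ∧ z 1 = z 2)) :
    Prim z := by
  by_cases h1 : z 0 = z 1
  · obtain ⟨a, b, hab⟩ := cop_of_primes (hz 1).1 (hz 2).1 (hz 1).2 (hz 2).2 (fun h2 => h ⟨h1, h2⟩)
    exact ⟨![0, a, b], by simpa [dotProduct, Fin.sum_univ_three] using hab⟩
  · obtain ⟨a, b, hab⟩ := cop_of_primes (hz 0).1 (hz 1).1 (hz 0).2 (hz 1).2 h1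
    exact ⟨![a, b, 0], by simpa [dotProduct, Fin.sum_univ_three] using hab⟩

section
variable {q : ℕ} [Fact q.Prime]

/-- the properties of the residue set -/
structure Good (S : Finset (Fin 3 → ZMod q)) (Same : Finset (Fin 3 → Fin 3 → ZMod q)) (h : ℤ) :
    Prop where
  p1 : ∀ σ : Fin 3 → Fin 3 → ZMod q, (∀ i, σ i ∈ S) → ∀ t : ℤ, |t| < h →
    (Matrix.of σ).det = t → σ ∈ Same
  p2 : ∀ σ : Fin 3 → Fin 3 → ZMod q, (∀ i, σ i ∈ S) → ∀ a b c : ZMod q,
    a • σ 0 + b • σ 1 + c • σ 2 = 0 → a + b + c = 0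
  p3 : ∀ s ∈ S, ∀ s' ∈ S, s ≠ s' → s ⨯₃ s' ≠ 0
  p4 : ∀ s ∈ S, s ≠ 0

/-- number of group elements moving `σ` to `M` -/
def cnt (σ : Fin 3 → Fin 3 → ZMod q) (M : Fin 3 → V) : ℕ :=
  ((Gp (ZMod q)).filter (fun g => ∀ i, σ i ᵥ* g = red q (M i))).card

lemma cnt_ex {σ : Fin 3 → Fin 3 → ZMod q} {M : Fin 3 → V} (h : cnt σ M ≠ 0) :
    ∃ g ∈ Gp (ZMod q), ∀ i, σ i ᵥ* g = red q (M i) := by
  obtain ⟨g, hg⟩ := Finset.card_ne_zero.1 h
  exact ⟨g, Finset.mem_filter.1 hg⟩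

lemma mul_eq_of {σ : Fin 3 → Fin 3 → ZMod q} {M : Fin 3 → V} {g : Matrix (Fin 3) (Fin 3) (ZMod q)}
    (h : ∀ i, σ i ᵥ* g = red q (M i)) : Matrix.of σ * g = Matrix.of fun i => red q (M i) := by
  funext i
  rw [mul_row]
  exact h i

lemma cnt_det {σ : Fin 3 → Fin 3 → ZMod q} {M : Fin 3 → V} (h : cnt σ M ≠ 0) :
    (Matrix.of σ).det = (dt M : ZMod q) := by
  obtain ⟨g, hg, h⟩ := cnt_ex h
  rw [← dt_red, ← mul_eq_of h, Matrix.det_mul, mem_Gp.1 hg, mul_one]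

lemma cnt_rel {σ : Fin 3 → Fin 3 → ZMod q} {M : Fin 3 → V} (h : cnt σ M ≠ 0) {w : V}
    (h0 : w ⬝ᵥ col M 0 = 0) (h1 : w ⬝ᵥ col M 1 = 0) (h2 : w ⬝ᵥ col M 2 = 0) :
    (w 0 : ZMod q) • σ 0 + (w 1 : ZMod q) • σ 1 + (w 2 : ZMod q) • σ 2 = 0 := by
  obtain ⟨g, hg, h⟩ := cnt_ex h
  apply vecMul_inj hg
  simp only [Matrix.add_vecMul, Matrix.smul_vecMul, h, Matrix.zero_vecMul]
  simp only [dotProduct, Fin.sum_univ_three, col] at h0 h1 h2
  funext j
  simp only [Pi.add_apply, Pi.smul_apply, smul_eq_mul, red, Pi.zero_apply]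
  fin_cases j
  · exact_mod_cast congrArg (Int.cast : ℤ → ZMod q) h0
  · exact_mod_cast congrArg (Int.cast : ℤ → ZMod q) h1
  · exact_mod_cast congrArg (Int.cast : ℤ → ZMod q) h2

lemma inB0 {Z : ℤ} {M : Fin 3 → V} (h : ∀ i, IsPt Z (M i)) : InB Z (col M 0) := fun i => (h i).1
lemma inB1 {Z : ℤ} {M : Fin 3 → V} (h : ∀ i, IsPt Z (M i)) : InB Z (col M 1) := fun i => (h i).2.1
lemma inZ2 {Z : ℤ} {M : Fin 3 → V} (h : ∀ i, IsPt Z (M i)) : InZ Z (col M 2) :=
  fun i => (h i).2.2.2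

lemma sumT1 (σ : Fin 3 → Fin 3 → ZMod q) (B : Finset (Fin 3 → V)) (Z h : ℤ) (hZ : 0 < Z)
    (hq : 2 * h ≤ q) (hh : h ≤ Z) (J : ℕ) (hJ : 64 * Z ^ 2 < 2 ^ J)
    (hB : ∀ M ∈ B, (∀ i, IsPt Z (M i)) ∧ |dt M| < h ∧ dt M ≠ 0) :
    ∑ M ∈ B, (cnt σ M : ℝ) ≤ 1 * (J * (64000 * Z ^ 2) * (2000 * Z ^ 2) ^ 2) := by
  have hnz : ∀ M ∈ B, (dt M : ZMod q) ≠ 0 := by
    intro M hM h0
    rw [ZMod.intCast_zmod_eq_zero_iff_dvd] at h0
    have h1 := Int.le_of_dvd (abs_pos.2 (hB M hM).2.2) ((dvd_abs _ _).2 h0)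
    have h2 := (hB M hM).2.1
    have h3 := abs_nonneg (dt M)
    omega
  apply sum_le_support B _ _ _ zero_le_one
  · intro M hM
    have := G3_le (Matrix.of σ) (Matrix.of fun i => red q (M i)) (by rw [dt_red]; exact hnz M hM)
    have h2 : cnt σ M ≤ 1 := by
      refine le_trans (Finset.card_le_card ?_) this
      intro g hg
      rw [Finset.mem_filter] at hg ⊢
      exact ⟨hg.1, mul_eq_of hg.2⟩
    exact_mod_cast h2
  · rcases (B.filter (fun M => cnt σ M ≠ 0)).eq_empty_or_nonempty with h0 | ⟨M0, hM0⟩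
    · rw [h0]; simp; positivity
    rw [Finset.mem_filter] at hM0
    rw [← Finset.card_image_of_injective _ cols_inj]
    apply countA1 _ Z hZ J hJ (dt M0) (hB M0 hM0.1).2.2
    intro τ hτ
    obtain ⟨M, hM, rfl⟩ := Finset.mem_image.1 hτ
    rw [Finset.mem_filter] at hM
    obtain ⟨hp, hlt, hne⟩ := hB M hM.1
    refine ⟨inB0 hp, inB1 hp, inZ2 hp, ?_, ?_⟩
    · apply prim_of_primes (fun l => ⟨(hp l).2.2.1, hZ.trans (hp l).2.2.2.1⟩)
      rintro ⟨e1, e2⟩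
      have e1' : M 0 2 = M 1 2 := e1
      have e2' : M 1 2 = M 2 2 := e2
      have hd : M 0 2 ∣ dt M := by
        refine ⟨col M 0 ⬝ᵥ (col M 1 ⨯₃ 1), ?_⟩
        simp [dt, col, cross_apply, dotProduct, Fin.sum_univ_three, ← e2', ← e1']
        ring
      have h1 := Int.le_of_dvd (abs_pos.2 hne) ((dvd_abs _ _).2 hd)
      have h2 := (hp 0).2.2.2.1
      omega
    · change dt M = dt M0
      have e : (dt M : ZMod q) = dt M0 := by rw [← cnt_det hM.2, cnt_det hM0.2]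
      rw [ZMod.intCast_eq_intCast_iff_dvd_sub] at e
      have h1 := abs_lt.1 hlt
      have h2 := abs_lt.1 (hB M0 hM0.1).2.1
      have := Int.eq_zero_of_abs_lt_dvd e (abs_lt.2 ⟨by omega, by omega⟩)
      omega

lemma rel_data {S : Finset (Fin 3 → ZMod q)} {Same : Finset (Fin 3 → Fin 3 → ZMod q)} {h : ℤ}
    (hG : Good S Same h) {σ : Fin 3 → Fin 3 → ZMod q} (hσ : ∀ i, σ i ∈ S) {Z : ℤ} (hZ : 0 < Z)
    {M : Fin 3 → V} (hp : ∀ i, IsPt Z (M i)) (hd : dt M = 0) (hn : NoSZ M) (hc : cnt σ M ≠ 0)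
    (m : ℤ) (hm0 : ∀ l, m ∣ (col M 0 ⨯₃ col M 2) l) (hm1 : ∀ l, m ∣ (col M 1 ⨯₃ col M 2) l) :
    Prim (col M 2) ∧ ∃ w, Prim w ∧ w ⬝ᵥ col M 0 = 0 ∧ w ⬝ᵥ col M 1 = 0 ∧ w ⬝ᵥ col M 2 = 0 ∧
      m * nrm w ≤ 64 * Z ^ 2 ∧ (q : ℤ) ∣ w 0 + w 1 + w 2 ∧ (q : ℤ) ≤ 3 * nrm w := by
  have hz0 : col M 2 0 ≠ 0 := (hZ.trans (hp 0).2.2.2.1).ne'
  obtain ⟨w, pw, h0, h1, h2, h3⟩ := exists_rel (col M 0) (col M 1) (col M 2) hz0 hd
  have hs := hn w pw h0 h1 h2
  obtain ⟨d, hd0, h4⟩ := h3.resolve_left hs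
  have h5 : (q : ℤ) ∣ w 0 + w 1 + w 2 := by
    rw [← ZMod.intCast_zmod_eq_zero_iff_dvd]
    push_cast
    exact hG.p2 σ hσ _ _ _ (cnt_rel hc h0 h1 h2)
  refine ⟨?_, w, pw, h0, h1, h2, ?_, h5, ?_⟩
  · apply prim_of_primes (fun l => ⟨(hp l).2.2.1, hZ.trans (hp l).2.2.2.1⟩)
    rintro ⟨e1, e2⟩
    apply hs
    simp only [dotProduct, Fin.sum_univ_three] at h2
    have e1' : col M 2 0 = col M 2 1 := e1
    have e2' : col M 2 1 = col M 2 2 := e2
    rw [← e2', ← e1'] at h2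
    apply mul_left_cancel₀ hz0
    linear_combination h2
  · rcases h4 with h4 | h4
    · exact nrm_le_of_smul hZ (inB1 hp) (inZ2 hp) pw hd0 h4 hm1
    · exact nrm_le_of_smul hZ (inB0 hp) (inZ2 hp) pw hd0 h4 hm0
  · have a := Int.le_of_dvd (abs_pos.2 hs) ((dvd_abs _ _).2 h5)
    have a0 := abs_le.1 (abs_le_nrm w 0)
    have a1 := abs_le.1 (abs_le_nrm w 1)
    have a2 := abs_le.1 (abs_le_nrm w 2)
    have : |w 0 + w 1 + w 2| ≤ 3 * nrm w := abs_le.2 ⟨by linarith, by linarith⟩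
    linarith

lemma sumT2 {S : Finset (Fin 3 → ZMod q)} {Same : Finset (Fin 3 → Fin 3 → ZMod q)} {h : ℤ}
    (hG : Good S Same h) {σ : Fin 3 → Fin 3 → ZMod q} (hσ : ∀ i, σ i ∈ S)
    (hnc : ¬ (σ 0 = σ 1 ∧ σ 1 = σ 2))
    (B : Finset (Fin 3 → V)) (Z : ℤ) (hZq : (q : ℤ) ≤ Z) (J : ℕ) (hJ : 64 * Z ^ 2 < 2 ^ J)
    (hB : ∀ M ∈ B, (∀ i, IsPt Z (M i)) ∧ dt M = 0 ∧ NoSZ M) :
    ∑ M ∈ B, (cnt σ M : ℝ) ≤ q ^ 2 * (J * (256000 * Z ^ 2 / q ^ 2) * (2000 * Z ^ 2) ^ 2) := by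
  have hqp : q.Prime := Fact.out
  have hq0 : (0 : ℤ) < q := by exact_mod_cast hqp.pos
  have hZ : 0 < Z := by omega
  have hcr : σ 0 ⨯₃ σ 1 ≠ 0 ∨ σ 1 ⨯₃ σ 2 ≠ 0 := by
    by_cases h1 : σ 0 = σ 1
    · exact Or.inr (hG.p3 _ (hσ 1) _ (hσ 2) (fun h2 => hnc ⟨h1, h2⟩))
    · exact Or.inl (hG.p3 _ (hσ 0) _ (hσ 1) h1)
  apply sum_le_support B _ _ _ (by positivity)
  · intro M _
    have h2 : cnt σ M ≤ q ^ 2 := by
      rcases hcr with h1 | h1
      · have := G2_le h1 (red q (M 0)) (red q (M 1))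
        rw [ZMod.card] at this
        refine le_trans (Finset.card_le_card ?_) this
        intro g hg
        rw [Finset.mem_filter] at hg ⊢
        exact ⟨hg.1, hg.2 0, hg.2 1⟩
      · have := G2_le h1 (red q (M 1)) (red q (M 2))
        rw [ZMod.card] at this
        refine le_trans (Finset.card_le_card ?_) this
        intro g hg
        rw [Finset.mem_filter] at hg ⊢
        exact ⟨hg.1, hg.2 1, hg.2 2⟩
    exact_mod_cast h2
  · rcases (B.filter (fun M => cnt σ M ≠ 0)).eq_empty_or_nonempty with h0 | ⟨M0, hM0⟩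
    · rw [h0]; simp; positivity
    rw [Finset.mem_filter] at hM0
    obtain ⟨-, u, pu, u0, u1, u2, -⟩ := rel_data hG hσ hZ (hB M0 hM0.1).1 (hB M0 hM0.1).2.1
      (hB M0 hM0.1).2.2 hM0.2 1 (by simp) (by simp)
    have hu := cnt_rel hM0.2 u0 u1 u2
    obtain ⟨i, hi⟩ : ∃ i, ¬ (q : ℤ) ∣ u i := by
      by_contra hcon
      push Not at hcon
      have : (q : ℤ) ∣ 1 := pu.dvd (fun i => by simpa using hcon i)
      have := Int.le_of_dvd one_pos this
      have := hqp.two_le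
      omega
    rw [← Finset.card_image_of_injective _ cols_inj]
    apply countA2 _ Z q hqp hZq J hJ u i hi
    intro τ hτ
    obtain ⟨M, hM, rfl⟩ := Finset.mem_image.1 hτ
    rw [Finset.mem_filter] at hM
    obtain ⟨hp, hd, hn⟩ := hB M hM.1
    obtain ⟨pz, w, pw, w0, w1, w2, h4, -, h6⟩ := rel_data hG hσ hZ hp hd hn hM.2 1
      (by simp) (by simp)
    refine ⟨inB0 hp, inB1 hp, inZ2 hp, pz, w, pw, w0, w1, w2, by simpa using h4, ?_, h6⟩
    have hw := cnt_rel hM.2 w0 w1 w2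
    have key : (w 2 : ZMod q) * u 0 = u 2 * w 0 ∧ (w 2 : ZMod q) * u 1 = u 2 * w 1 ∧
        (w 0 : ZMod q) * u 1 = u 0 * w 1 := by
      rcases hcr with h1 | h1
      · exact rel2 h1 hw hu
      · have := rel2 (r := σ 0) (a := (w 1 : ZMod q)) (b := (w 2 : ZMod q)) (c := (w 0 : ZMod q))
          (a' := (u 1 : ZMod q)) (b' := (u 2 : ZMod q)) (c' := (u 0 : ZMod q)) h1
          (by rw [← hw]; abel) (by rw [← hu]; abel)
        refine ⟨?_, ?_, ?_⟩
        · linear_combination -this.2.1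
        · linear_combination -this.2.2
        · exact this.1
    intro l
    rw [← ZMod.intCast_zmod_eq_zero_iff_dvd]
    fin_cases l <;> simp [cross_apply]
    · linear_combination -key.2.1
    · linear_combination key.1
    · linear_combination key.2.2

lemma sumT3 {S : Finset (Fin 3 → ZMod q)} {Same : Finset (Fin 3 → Fin 3 → ZMod q)} {h : ℤ}
    (hG : Good S Same h) {σ : Fin 3 → Fin 3 → ZMod q} (hσ : ∀ i, σ i ∈ S)
    (hc : σ 0 = σ 1 ∧ σ 1 = σ 2)
    (B : Finset (Fin 3 → V)) (Z : ℤ) (hZq : (q : ℤ) ^ 2 ≤ Z) (J : ℕ) (hJ : 64 * Z ^ 2 < 2 ^ J)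
    (hB : ∀ M ∈ B, (∀ i, IsPt Z (M i)) ∧ dt M = 0 ∧ NoSZ M) :
    ∑ M ∈ B, (cnt σ M : ℝ) ≤ q ^ 5 * (J * (128000 * Z ^ 2 / q ^ 2) * (2000 * Z ^ 2 / q) ^ 2) := by
  have hqp : q.Prime := Fact.out
  have hq0 : (0 : ℤ) < q := by exact_mod_cast hqp.pos
  have hZ : 0 < Z := by nlinarith
  apply sum_le_support B _ _ _ (by positivity)
  · intro M _
    have h2 : cnt σ M ≤ q ^ 5 := by
      have := G1_le (hG.p4 _ (hσ 0)) (red q (M 0))
      rw [ZMod.card] at this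
      refine le_trans (Finset.card_le_card ?_) this
      intro g hg
      rw [Finset.mem_filter] at hg ⊢
      exact ⟨hg.1, hg.2 0⟩
    exact_mod_cast h2
  · rw [← Finset.card_image_of_injective _ cols_inj]
    have := countA3 ((B.filter (fun M => cnt σ M ≠ 0)).image cols) Z q hq0 hZq J hJ ?_
    · simpa using this
    intro τ hτ
    obtain ⟨M, hM, rfl⟩ := Finset.mem_image.1 hτ
    rw [Finset.mem_filter] at hM
    obtain ⟨hp, hd, hn⟩ := hB M hM.1
    obtain ⟨g, -, hg⟩ := cnt_ex hM.2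
    have hσc : ∀ i, σ i = σ 0 := by
      intro i; fin_cases i
      · rfl
      · exact hc.1.symm
      · exact (hc.1.trans hc.2).symm
    have hcong : ∀ j l l', (q : ℤ) ∣ col M j l - col M j l' := by
      intro j l l'
      rw [← ZMod.intCast_eq_intCast_iff_dvd_sub]
      have e : red q (M l') = red q (M l) := by rw [← hg l, ← hg l', hσc l, hσc l']
      exact congrFun e j
    have hcross : ∀ j l, (q : ℤ) ∣ (col M j ⨯₃ col M 2) l := by
      intro j l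
      have e : l = (l + 1) + 2 := by fin_cases l <;> rfl
      rw [e, cross_rot]
      have := dvd_add ((hcong j (l + 1) (l + 1 + 1)).mul_right (col M 2 (l + 1 + 1)))
        ((hcong 2 (l + 1 + 1) (l + 1)).mul_left (col M j (l + 1 + 1)))
      exact dvd_eq this (by ring)
    obtain ⟨pz, w, pw, w0, w1, w2, h4, h5, h6⟩ := rel_data hG hσ hZ hp hd hn hM.2 q
      (hcross 0) (hcross 1)
    exact ⟨inB0 hp, inB1 hp, inZ2 hp, pz, hcross 0, hcross 1, hcong 2, w, pw, w0, w1, w2, h4,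
      h5, h6⟩

lemma sum_all {S : Finset (Fin 3 → ZMod q)} {Same : Finset (Fin 3 → Fin 3 → ZMod q)} {h : ℤ}
    (hG : Good S Same h) (B : Finset (Fin 3 → V)) (Z : ℤ) (hZq : (q : ℤ) ^ 2 ≤ Z)
    (hq : 2 * h ≤ q) (J : ℕ) (hJ : 64 * Z ^ 2 < 2 ^ J) (β : ℝ) (hβ1 : (Same.card : ℝ) ≤ β)
    (hβ2 : (S.card : ℝ) * q ≤ β)
    (hB : ∀ M ∈ B, (∀ i, IsPt Z (M i)) ∧ |dt M| < h ∧ NoSZ M) :
    ∑ σ ∈ Fintype.piFinset (fun _ : Fin 3 => S), ∑ M ∈ B, (cnt σ M : ℝ)
      ≤ β * (2 * 10 ^ 12 * J * Z ^ 6) := by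
  have hqp : q.Prime := Fact.out
  have hq0 : (0 : ℤ) < q := by exact_mod_cast hqp.pos
  have hqZ : (q : ℤ) ≤ Z := by nlinarith
  have hZ : 0 < Z := by omega
  have hq' : (0 : ℝ) < q := by exact_mod_cast hqp.pos
  have hZ' : (0 : ℝ) < Z := by exact_mod_cast hZ
  set A : ℝ := 10 ^ 9 * J * Z ^ 6 with hA
  have hA0 : 0 ≤ A := by positivity
  have key : ∀ σ ∈ Fintype.piFinset (fun _ : Fin 3 => S), ∑ M ∈ B, (cnt σ M : ℝ) ≤
      (if σ ∈ Same then 1280 * A else 0) + (if σ 0 = σ 1 ∧ σ 1 = σ 2 then 512 * q * A else 0) := by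
    intro σ hσ
    rw [Fintype.mem_piFinset] at hσ
    by_cases hs : σ ∈ Same
    · rw [← Finset.sum_filter_add_sum_filter_not B (fun M => dt M = 0), if_pos hs]
      have t1 := sumT1 σ (B.filter (fun M => ¬ dt M = 0)) Z h hZ hq (by omega) J hJ (fun M hM => by
        rw [Finset.mem_filter] at hM
        exact ⟨(hB M hM.1).1, (hB M hM.1).2.1, hM.2⟩)
      have e1 : 1 * (J * (64000 * (Z : ℝ) ^ 2) * (2000 * Z ^ 2) ^ 2) = 256 * A := by
        rw [hA]; ring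
      rw [e1] at t1
      have hB0 : ∀ M ∈ B.filter (fun M => dt M = 0), (∀ i, IsPt Z (M i)) ∧ dt M = 0 ∧ NoSZ M :=
        fun M hM => by
          rw [Finset.mem_filter] at hM
          exact ⟨(hB M hM.1).1, hM.2, (hB M hM.1).2.2⟩
      by_cases hc : σ 0 = σ 1 ∧ σ 1 = σ 2
      · have t3 := sumT3 hG hσ hc _ Z hZq J hJ hB0
        have e3 : (q : ℝ) ^ 5 * (J * (128000 * Z ^ 2 / q ^ 2) * (2000 * Z ^ 2 / q) ^ 2)
            = 512 * q * A := by rw [hA]; field_simp; ring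
        rw [e3] at t3
        rw [if_pos hc]
        linarith
      · have t2 := sumT2 hG hσ hc _ Z hqZ J hJ hB0
        have e2 : (q : ℝ) ^ 2 * (J * (256000 * Z ^ 2 / q ^ 2) * (2000 * Z ^ 2) ^ 2)
            = 1024 * A := by rw [hA]; field_simp; ring
        rw [e2] at t2
        rw [if_neg hc]
        linarith
    · have : ∑ M ∈ B, (cnt σ M : ℝ) = 0 := by
        apply Finset.sum_eq_zero
        intro M hM
        by_contra hne
        have hne' : cnt σ M ≠ 0 := by exact_mod_cast hne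
        exact hs (hG.p1 σ hσ (dt M) (hB M hM).2.1 (cnt_det hne'))
      rw [this]
      split_ifs <;> positivity
  refine (Finset.sum_le_sum key).trans ?_
  rw [Finset.sum_add_distrib, ← Finset.sum_filter, ← Finset.sum_filter, Finset.sum_const,
    Finset.sum_const, nsmul_eq_mul, nsmul_eq_mul]
  have c1 : (((Fintype.piFinset (fun _ : Fin 3 => S)).filter (fun σ => σ ∈ Same)).card : ℝ)
      ≤ β := by
    refine le_trans ?_ hβ1
    exact_mod_cast Finset.card_le_card (fun σ hσ => (Finset.mem_filter.1 hσ).2)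
  have c2 : (((Fintype.piFinset (fun _ : Fin 3 => S)).filter
      (fun σ => σ 0 = σ 1 ∧ σ 1 = σ 2)).card : ℝ) ≤ S.card := by
    norm_cast
    apply Finset.card_le_card_of_injOn (fun σ => σ 0)
    · intro σ hσ
      exact Fintype.mem_piFinset.1 (Finset.mem_filter.1 hσ).1 0
    · intro σ hσ σ' hσ' e
      have a := (Finset.mem_filter.1 hσ).2
      have a' := (Finset.mem_filter.1 hσ').2
      have e' : σ 0 = σ' 0 := e
      funext i
      fin_cases i
      · exact e'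
      · exact a.1.symm.trans (e'.trans a'.1)
      · exact (a.1.trans a.2).symm.trans (e'.trans (a'.1.trans a'.2))
  have hβ : 0 ≤ β := le_trans (by positivity) hβ1
  calc _ ≤ β * (1280 * A) + S.card * (512 * q * A) := by gcongr
    _ = β * (1280 * A) + (S.card * q) * (512 * A) := by ring
    _ ≤ β * (1280 * A) + β * (512 * A) := by gcongr
    _ = β * (1792 * A) := by ring
    _ ≤ β * (2000 * A) := by gcongr; norm_num
    _ = _ := by rw [hA]; ring

/-- selection by the group element -/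
def sel (S : Finset (Fin 3 → ZMod q)) (g : Matrix (Fin 3) (Fin 3) (ZMod q)) (v : V) : Prop :=
  ∃ s ∈ S, s ᵥ* g = red q v

instance (S : Finset (Fin 3 → ZMod q)) (g : Matrix (Fin 3) (Fin 3) (ZMod q)) (v : V) :
    Decidable (sel S g v) := by unfold sel; infer_instance

lemma sel1_ge {S : Finset (Fin 3 → ZMod q)} (hS : ∀ s ∈ S, s ≠ 0) {v : V} (hv : red q v ≠ 0) :
    (S.card : ℝ) * q ^ 5 / 2 ≤ ((Gp (ZMod q)).filter (fun g => sel S g v)).card := by
  have e : (Gp (ZMod q)).filter (fun g => sel S g v)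
      = S.biUnion (fun s => (Gp (ZMod q)).filter (fun g => s ᵥ* g = red q v)) := by
    ext g
    rw [Finset.mem_filter, Finset.mem_biUnion]
    simp only [sel, Finset.mem_filter]
    exact ⟨fun ⟨a, s, b, c⟩ => ⟨s, b, a, c⟩, fun ⟨s, b, a, c⟩ => ⟨a, s, b, c⟩⟩
  rw [e, Finset.card_biUnion]
  · push_cast
    calc (S.card : ℝ) * q ^ 5 / 2 = ∑ _s ∈ S, (q : ℝ) ^ 5 / 2 := by simp; ring
      _ ≤ _ := Finset.sum_le_sum fun s hs => by
        have := G1_ge (hS s hs) hv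
        rw [ZMod.card] at this
        have h2 : (q : ℝ) ^ 5 ≤ 2 * ((Gp (ZMod q)).filter (fun g => s ᵥ* g = red q v)).card := by
          exact_mod_cast this
        linarith
  · intro s _ s' _ hne
    rw [Function.onFun, Finset.disjoint_filter]
    intro g hg h1 h2
    exact hne (vecMul_inj hg (h1.trans h2.symm))

lemma sel3_le (S : Finset (Fin 3 → ZMod q)) (M : Fin 3 → V) :
    (((Gp (ZMod q)).filter (fun g => ∀ i, sel S g (M i))).card : ℝ)
      ≤ ∑ σ ∈ Fintype.piFinset (fun _ : Fin 3 => S), (cnt σ M : ℝ) := by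
  norm_cast
  refine le_trans (Finset.card_le_card ?_) Finset.card_biUnion_le
  intro g hg
  rw [Finset.mem_filter] at hg
  choose σ hσ using hg.2
  rw [Finset.mem_biUnion]
  exact ⟨σ, Fintype.mem_piFinset.2 fun i => (hσ i).1,
    Finset.mem_filter.2 ⟨hg.1, fun i => (hσ i).2⟩⟩

end

lemma red_inj {Z : ℤ} {l : ℕ} (hl : 8 * Z < l) (hZ : 0 < Z) {v v' : V} (hv : IsPt Z v)
    (hv' : IsPt Z v') (h : red l v = red l v') : v = v' := by
  funext j
  have e : ((v j : ℤ) : ZMod l) = v' j := congrFun h j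
  rw [ZMod.intCast_eq_intCast_iff_dvd_sub] at e
  have b : ∀ u : V, IsPt Z u → 0 ≤ u j ∧ u j ≤ 8 * Z := by
    intro u hu
    obtain ⟨a0, a1, -, a2⟩ := hu
    fin_cases j
    · exact ⟨a0.1, a0.2.le⟩
    · exact ⟨a1.1, a1.2.le⟩
    · exact ⟨(hZ.trans a2.1).le, a2.2⟩
  have b1 := b v hv
  have b2 := b v' hv'
  have := Int.eq_zero_of_abs_lt_dvd e (abs_lt.2 ⟨by omega, by omega⟩)
  omega

theorem select {q l : ℕ} [Fact q.Prime] [Fact l.Prime] {S : Finset (Fin 3 → ZMod q)}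
    {Same : Finset (Fin 3 → Fin 3 → ZMod q)} {h : ℤ}
    (hG : Good S Same h) (Z : ℤ) (hZq : (q : ℤ) ^ 2 ≤ Z)
    (hq : 2 * h ≤ q) (hl1 : 8 * Z < l) (hl2 : (l : ℤ) ≤ 16 * Z)
    (J : ℕ) (hJ : 64 * Z ^ 2 < 2 ^ J) (β : ℝ) (hβ1 : (Same.card : ℝ) ≤ β)
    (hβ2 : (S.card : ℝ) * q ≤ β) (Pr : Finset ℤ) (hPr : ∀ z ∈ Pr, Prime z ∧ Z < z ∧ z ≤ 8 * Z)
    (n : ℕ) (hn : 0 < n) (h1 : 4 * (n : ℝ) ≤ Z * Pr.card * S.card / q ^ 3)
    (h2 : 64 * (n : ℝ) ^ 2 * (4 * 10 ^ 9 * β * J * Z ^ 3 / q ^ 8)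
      ≤ (Z * Pr.card * S.card / q ^ 3) ^ 3) :
    ∃ U : Finset V, U.card = n ∧ (∀ v ∈ U, IsPt Z v) ∧
      ∀ M : Fin 3 → V, (∀ i, M i ∈ U) → Function.Injective M → h ≤ |dt M| := by
  classical
  have hqp : q.Prime := Fact.out
  have hlp : l.Prime := Fact.out
  have hq0 : (0 : ℤ) < q := by exact_mod_cast hqp.pos
  have hqZ : (q : ℤ) ≤ Z := by nlinarith
  have hZ : 0 < Z := by omega
  have hq' : (0 : ℝ) < q := by exact_mod_cast hqp.pos
  have hl' : (0 : ℝ) < l := by exact_mod_cast hlp.pos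
  have hZ' : (0 : ℝ) < Z := by exact_mod_cast hZ
  have hn' : (0 : ℝ) < n := by exact_mod_cast hn
  have hl1' : (8 * Z : ℝ) ≤ l := by exact_mod_cast hl1.le
  have hl2' : (l : ℝ) ≤ 16 * Z := by exact_mod_cast hl2
  obtain ⟨ν, hν⟩ : ∃ ν : ZMod l, ¬ IsSquare ν := by
    apply FiniteField.exists_nonsquare
    rw [ZMod.ringChar_zmod_n]
    omega
  set X : Finset V := Fintype.piFinset ![Finset.Ico 0 (8 * Z), Finset.Ico 0 (8 * Z), Pr] with hX
  have hXm : ∀ v ∈ X, IsPt Z v := by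
    intro v hv
    rw [hX, Fintype.mem_piFinset] at hv
    have a0 := hv 0
    have a1 := hv 1
    have a2 := hv 2
    simp only [Matrix.cons_val_zero, Matrix.cons_val_one, Matrix.cons_val, Finset.mem_Ico]
      at a0 a1 a2
    exact ⟨a0, a1, hPr _ a2⟩
  have hXc : (X.card : ℝ) = 64 * Z ^ 2 * Pr.card := by
    rw [hX, Fintype.card_piFinset, Fin.prod_univ_three]
    simp only [Matrix.cons_val_zero, Matrix.cons_val_one, Matrix.cons_val, Int.card_Ico]
    have : (((8 * Z - 0).toNat : ℕ) : ℝ) = 8 * Z := by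
      have : (((8 * Z - 0).toNat : ℕ) : ℤ) = 8 * Z := by omega
      exact_mod_cast this
    push_cast
    rw [this]; ring
  set B : Finset (Fin 3 → V) := (Fintype.piFinset (fun _ : Fin 3 => X)).filter
    (fun M => Function.Injective M ∧ |dt M| < h) with hB
  have hBm : ∀ M ∈ B, (∀ i, M i ∈ X) ∧ Function.Injective M ∧ |dt M| < h := by
    intro M hM
    rw [hB, Finset.mem_filter, Fintype.mem_piFinset] at hM
    exact hM
  have hm0 : (0 : ℝ) < Z * Pr.card * S.card / q ^ 3 := by linarith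
  have hS0 : (0 : ℝ) < S.card := by
    by_contra hcon
    have : (S.card : ℝ) = 0 := le_antisymm (not_lt.1 hcon) (by positivity)
    rw [this] at hm0
    simp at hm0
  have hβ0 : 0 < β := lt_of_lt_of_le (by positivity) hβ2
  have hJ0 : (0 : ℝ) < J := by
    rcases Nat.eq_zero_or_pos J with rfl | h
    · exfalso; simp at hJ; nlinarith
    · exact_mod_cast h
  have key := averaging (Gp (ZMod q) ×ˢ Ac (ZMod l))
    (fun ω => ((X.filter (fun v => sel S ω.1 v ∧ cap ν ω.2 (red l v))).card : ℝ))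
    (fun ω => ((B.filter (fun M => (∀ i, sel S ω.1 (M i)) ∧
      (∀ i, cap ν ω.2 (red l (M i))))).card : ℝ))
    (Z * Pr.card * S.card / q ^ 3) (4 * 10 ^ 9 * β * J * Z ^ 3 / q ^ 8) (q ^ 8 * l ^ 4) n hm0
    (by positivity) (by positivity) ?_ (fun _ => by positivity) ?_ ?_ h1 h2
  · obtain ⟨⟨g, a⟩, -, hω1, hω2⟩ := key
    simp only at hω1 hω2
    obtain ⟨U, hU, hUc, hind⟩ := deletion (X.filter (fun v => sel S g v ∧ cap ν a (red l v)))
      (B.filter (fun M => (∀ i, sel S g (M i)) ∧ (∀ i, cap ν a (red l (M i))))) (fun M hM => by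
        rw [Finset.mem_filter] at hM
        exact ⟨(hBm M hM.1).2.1, fun i => Finset.mem_filter.2
          ⟨(hBm M hM.1).1 i, hM.2.1 i, hM.2.2 i⟩⟩) n hn (by exact_mod_cast hω1) hω2
    refine ⟨U, hUc, fun v hv => hXm v (Finset.mem_filter.1 (hU hv)).1, ?_⟩
    intro M hM hinj
    by_contra hlt
    refine hind M ?_ hM
    rw [Finset.mem_filter, hB, Finset.mem_filter, Fintype.mem_piFinset]
    exact ⟨⟨fun i => (Finset.mem_filter.1 (hU (hM i))).1, hinj, not_le.1 hlt⟩,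
      fun i => (Finset.mem_filter.1 (hU (hM i))).2.1, fun i => (Finset.mem_filter.1 (hU (hM i))).2.2⟩
  · rw [Finset.card_product]
    have a1 := card_Gp (F := ZMod q)
    have a2 := card_Ac (F := ZMod l)
    rw [ZMod.card] at a1 a2
    exact_mod_cast Nat.mul_le_mul a1 a2
  · rw [dcount (Gp (ZMod q)) (Ac (ZMod l)) X (fun g v => sel S g v) (fun a v => cap ν a (red l v))]
    calc _ ≤ ∑ _v ∈ X, ((S.card : ℝ) * q ^ 5 / 2) * (l ^ 3 / 2) := ?_
      _ ≤ _ := ?_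
    · rw [Finset.sum_const, nsmul_eq_mul, hXc]
      calc (Z : ℝ) * Pr.card * S.card / q ^ 3 * (q ^ 8 * l ^ 4)
          = ((Z : ℝ) * Pr.card * S.card * q ^ 5 * l ^ 3) * l := by field_simp
        _ ≤ ((Z : ℝ) * Pr.card * S.card * q ^ 5 * l ^ 3) * (16 * Z) := by gcongr
        _ = _ := by ring
    · apply Finset.sum_le_sum
      intro v hv
      have hv0 : red q v ≠ 0 := by
        intro h0
        have e : ((v 2 : ℤ) : ZMod q) = 0 := congrFun h0 2
        rw [ZMod.intCast_zmod_eq_zero_iff_dvd] at e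
        obtain ⟨-, -, pv, a1, -⟩ := hXm v hv
        have := Int.eq_of_associated_of_nonneg
          (((Nat.prime_iff_prime_int.1 hqp).dvd_prime_iff_associated pv).1 e) hq0.le (by omega)
        omega
      have b1 := sel1_ge hG.p4 hv0
      have b2 := cap1_ge ν (red l v)
      rw [ZMod.card] at b2
      have b2' : (l : ℝ) ^ 3 / 2 ≤ ((Ac (ZMod l)).filter (fun a => cap ν a (red l v))).card := by
        have : (l : ℝ) ^ 3 ≤ 2 * ((Ac (ZMod l)).filter (fun a => cap ν a (red l v))).card := by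
          exact_mod_cast b2
        linarith
      exact mul_le_mul b1 b2' (by positivity) (by positivity)
  · rw [dcount (Gp (ZMod q)) (Ac (ZMod l)) B (fun g M => ∀ i, sel S g (M i))
      (fun a M => ∀ i, cap ν a (red l (M i)))]
    have hinj : ∀ M ∈ B, Function.Injective (fun i => red l (M i)) := by
      intro M hM i j hij
      exact (hBm M hM).2.1 (red_inj hl1 hZ (hXm _ ((hBm M hM).1 i)) (hXm _ ((hBm M hM).1 j)) hij)
    rw [← Finset.sum_filter_of_ne (p := fun M => NoSZ M)]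
    · calc _ ≤ ∑ M ∈ B.filter (fun M => NoSZ M),
            (∑ σ ∈ Fintype.piFinset (fun _ : Fin 3 => S), (cnt σ M : ℝ)) * l := ?_
        _ = (∑ σ ∈ Fintype.piFinset (fun _ : Fin 3 => S),
            ∑ M ∈ B.filter (fun M => NoSZ M), (cnt σ M : ℝ)) * l := by
            rw [← Finset.sum_mul, Finset.sum_comm]
        _ ≤ (β * (2 * 10 ^ 12 * J * Z ^ 6)) * l := by
            gcongr
            apply sum_all hG _ Z hZq hq J hJ β hβ1 hβ2
            intro M hM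
            rw [Finset.mem_filter] at hM
            exact ⟨fun i => hXm _ ((hBm M hM.1).1 i), (hBm M hM.1).2.2, hM.2⟩
        _ ≤ (β * (4 * 10 ^ 9 * J * Z ^ 3 * (8 * Z) ^ 3)) * l := by
            gcongr β * ?_ * l
            have : (0 : ℝ) ≤ J * Z ^ 6 := by positivity
            nlinarith
        _ ≤ (β * (4 * 10 ^ 9 * J * Z ^ 3 * l ^ 3)) * l := by gcongr
        _ = _ := by field_simp
      apply Finset.sum_le_sum
      intro M hM
      have b2 := cap3_le hν (hinj M (Finset.mem_filter.1 hM).1)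
      rw [ZMod.card] at b2
      exact mul_le_mul (sel3_le S M) (by exact_mod_cast b2) (by positivity)
        (Finset.sum_nonneg fun _ _ => by positivity)
    · intro M hM hne w pw w0 w1 w2 hs
      have : (((Ac (ZMod l)).filter (fun a => ∀ i, cap ν a (red l (M i)))).card : ℝ) ≠ 0 :=
        right_ne_zero_of_mul hne
      obtain ⟨a, ha⟩ := Finset.card_ne_zero.1 (by exact_mod_cast this)
      rw [Finset.mem_filter] at ha
      have hw := cap_kill hν ha.1 (hinj M hM) ha.2 (red l w) (by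
        simp only [red]; exact_mod_cast congrArg (Int.cast : ℤ → ZMod l) hs) (by
        intro j
        simp only [dotProduct, Fin.sum_univ_three, col] at w0 w1 w2
        simp only [red]
        fin_cases j
        · exact_mod_cast congrArg (Int.cast : ℤ → ZMod l) w0
        · exact_mod_cast congrArg (Int.cast : ℤ → ZMod l) w1
        · exact_mod_cast congrArg (Int.cast : ℤ → ZMod l) w2)
      have : (l : ℤ) ∣ 1 := pw.dvd (fun i => by
        rw [one_mul, ← ZMod.intCast_zmod_eq_zero_iff_dvd]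
        exact congrFun hw i)
      have := Int.le_of_dvd one_pos this
      omega

end Vale.Agent.P036
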