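import Vale.Agent.P036.Alg
import Vale.Agent.P036.Select

namespace Vale.Agent.P036

open Finset Matrix

/-- digit expansion -/
def dig {κ : Type} {R : ℕ} (B : ℤ) (e : Fin R → ℕ) (F : Fin R → κ → ℤ) (a : κ) : ℤ :=
  ∑ s, F s a * B ^ e s

lemma d3_dig {κ : Type} {R : ℕ} (B : ℤ) (e1 e2 e3 : Fin R → ℕ) (F G H : Fin R → κ → ℤ) (a b c : κ) :
    d3 (dig B e1 F) (dig B e2 G) (dig B e3 H) a b c = ∑ i : Fin R × Fin R × Fin R,
      d3 (F i.1) (G i.2.1) (H i.2.2) a b c * B ^ (e1 i.1 + e2 i.2.1 + e3 i.2.2) := by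
  have h1 : ∀ g h : κ → ℤ, d3 (dig B e1 F) g h a b c = ∑ s, d3 (F s) g h a b c * B ^ e1 s := by
    intro g h
    simp only [d3, dig, Finset.sum_mul, ← Finset.sum_add_distrib, ← Finset.sum_sub_distrib]
    exact Finset.sum_congr rfl fun _ _ => by ring
  have h2 : ∀ f h : κ → ℤ, d3 f (dig B e2 G) h a b c = ∑ s, d3 f (G s) h a b c * B ^ e2 s := by
    intro g h
    simp only [d3, dig, Finset.sum_mul, Finset.mul_sum, ← Finset.sum_add_distrib,
      ← Finset.sum_sub_distrib]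
    exact Finset.sum_congr rfl fun _ _ => by ring
  have h3 : ∀ f g : κ → ℤ, d3 f g (dig B e3 H) a b c = ∑ s, d3 f g (H s) a b c * B ^ e3 s := by
    intro g h
    simp only [d3, dig, Finset.mul_sum, ← Finset.sum_add_distrib, ← Finset.sum_sub_distrib]
    exact Finset.sum_congr rfl fun _ _ => by ring
  rw [h1, Fintype.sum_prod_type]
  apply Finset.sum_congr rfl
  intro s _
  rw [h2, Fintype.sum_prod_type, Finset.sum_mul]
  apply Finset.sum_congr rfl
  intro s' _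
  rw [h3, Finset.sum_mul, Finset.sum_mul]
  apply Finset.sum_congr rfl
  intro s'' _
  ring

lemma split_sum {ι : Type} [Fintype ι] (T : ι → ℤ) (ex : ι → ℕ) (B M : ℤ) (hB : 1 ≤ B) (D : ℕ)
    (hT : ∀ i, |T i| ≤ M) : ∃ Lo Hi : ℤ, ∑ i, T i * B ^ ex i
      = Lo + B ^ (D + 1) * (∑ i, if ex i = D + 1 then T i else 0) + B ^ (D + 2) * Hi ∧
      |Lo| ≤ Fintype.card ι * (M * B ^ D) := by
  refine ⟨∑ i, if ex i ≤ D then T i * B ^ ex i else 0,
    ∑ i, if D + 2 ≤ ex i then T i * B ^ (ex i - (D + 2)) else 0, ?_, ?_⟩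
  · rw [Finset.mul_sum, Finset.mul_sum, ← Finset.sum_add_distrib, ← Finset.sum_add_distrib]
    apply Finset.sum_congr rfl
    intro i _
    rcases lt_trichotomy (ex i) (D + 1) with h | h | h
    · rw [if_pos (by omega), if_neg (by omega), if_neg (by omega)]; ring
    · rw [if_neg (by omega), if_pos h, if_neg (by omega), h]; ring
    · rw [if_neg (by omega), if_neg (by omega), if_pos (by omega)]
      obtain ⟨d, hd⟩ : ∃ d, ex i = D + 2 + d := ⟨ex i - (D + 2), by omega⟩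
      rw [hd, Nat.add_sub_cancel_left]; ring
  · refine (Finset.abs_sum_le_sum_abs _ _).trans ?_
    calc _ ≤ ∑ _i : ι, M * B ^ D := Finset.sum_le_sum fun i _ => ?_
      _ = _ := by simp
    have hM : 0 ≤ M := (abs_nonneg _).trans (hT i)
    split_ifs with h
    · rw [abs_mul, abs_of_nonneg (by positivity : 0 ≤ B ^ ex i)]
      exact mul_le_mul (hT i) (pow_le_pow_right₀ hB h) (by positivity) hM
    · simp; positivity

lemma exp_eq {s s' s'' : ℕ} (h : 4 ^ s + 2 * 4 ^ s' = 3 * 4 ^ s'') : s = s'' ∧ s' = s'' := by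
  have k : ∀ {a b : ℕ}, a < b → 4 * 4 ^ a ≤ 4 ^ b := by
    intro a b hab
    rw [← pow_succ']
    exact Nat.pow_le_pow_right (by norm_num) hab
  have p1 : 0 < 4 ^ s := by positivity
  have p2 : 0 < 4 ^ s' := by positivity
  have p3 : 0 < 4 ^ s'' := by positivity
  rcases lt_trichotomy s s'' with a | a | a <;> rcases lt_trichotomy s' s'' with b | b | b
  all_goals first
    | exact ⟨a, b⟩
    | (exfalso; have := k a; have := k b; omega)
    | (exfalso; have := k a; rw [b] at h; omega)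
    | (exfalso; have := k b; rw [a] at h; omega)

lemma d3_bound {κ : Type} {f g h : κ → ℤ} {X Y W : ℤ} (hf : ∀ a, 0 ≤ f a ∧ f a ≤ X)
    (hg : ∀ a, 0 ≤ g a ∧ g a ≤ Y) (hh : ∀ a, 0 ≤ h a ∧ h a ≤ W) (a b c : κ) :
    |d3 f g h a b c| ≤ 3 * (X * Y * W) := by
  have k : ∀ a b c, 0 ≤ f a * g b * h c ∧ f a * g b * h c ≤ X * Y * W := by
    intro a b c
    have hX := (hf a).1.trans (hf a).2
    have hY := (hg a).1.trans (hg a).2
    exact ⟨mul_nonneg (mul_nonneg (hf a).1 (hg b).1) (hh c).1,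
      mul_le_mul (mul_le_mul (hf a).2 (hg b).2 (hg b).1 hX) (hh c).2 (hh c).1 (mul_nonneg hX hY)⟩
  have := k a b c
  have := k b c a
  have := k c a b
  have := k a c b
  have := k b a c
  have := k c b a
  unfold d3
  rw [abs_le]
  constructor <;> linarith

lemma dig_bound {κ : Type} {R : ℕ} {B p : ℤ} (hB : 1 ≤ B) {e : Fin R → ℕ} {F : Fin R → κ → ℤ}
    (hF : ∀ s a, 0 ≤ F s a ∧ F s a ≤ p) {E : ℕ} (he : ∀ s, e s ≤ E) (hR : R * p ≤ B) (a : κ) :
    0 ≤ dig B e F a ∧ dig B e F a ≤ B ^ (E + 1) := by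
  refine ⟨Finset.sum_nonneg fun s _ => mul_nonneg (hF s a).1 (by positivity), ?_⟩
  calc dig B e F a ≤ ∑ _s : Fin R, p * B ^ E := Finset.sum_le_sum fun s _ =>
        mul_le_mul (hF s a).2 (pow_le_pow_right₀ hB (he s)) (by positivity)
          ((hF s a).1.trans (hF s a).2)
    _ = (R * p) * B ^ E := by simp; ring
    _ ≤ B * B ^ E := by gcongr
    _ = _ := by ring

lemma core {q p μ r Δ E err1 err2 t U : ℤ} (hp : 0 < p) (hq : q = p * μ + r) (hr : 0 ≤ r)
    (hΔ : Δ = μ * E + err1 + err2) (hE : ¬ p ∣ E) (hU : |E| + p ≤ U) (h1 : 4 * |err1| ≤ μ)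
    (h2 : 8 * |err2| ≤ μ) (h3 : 8 * (U * r) ≤ μ) (h4 : 4 * |t| < μ) : ¬ q ∣ Δ - t := by
  intro hd
  have e1 : 0 ≤ E % p := Int.emod_nonneg _ hp.ne'
  have e2 : E % p < p := Int.emod_lt_of_pos _ hp
  have e3 : E % p ≠ 0 := fun h => hE (Int.dvd_of_emod_eq_zero h)
  have e4 : E = E % p + p * (E / p) := (Int.emod_add_mul_ediv E p).symm
  generalize E % p = e at *
  generalize E / p = u at *
  have hu : |u| ≤ U := by
    have a1 : |p * u| ≤ U := by
      have : p * u = E - e := by linarith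
      rw [this]
      have := abs_sub E e
      rw [abs_of_nonneg e1] at this
      linarith
    rw [abs_mul, abs_of_pos hp] at a1
    nlinarith [abs_nonneg u]
  have hur : |u * r| ≤ U * r := by rw [abs_mul, abs_of_nonneg hr]; gcongr
  have hd2 : q ∣ μ * e - u * r + err1 + err2 - t := by
    have := dvd_sub hd (dvd_mul_right q u)
    exact dvd_eq this (by rw [hΔ, e4, hq]; ring)
  have hμ : 0 < μ := by linarith [abs_nonneg t]
  have b1 := abs_le.1 hur
  have b2 := abs_le.1 (le_refl |err1|)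
  have b3 := abs_le.1 (le_refl |err2|)
  have b4 := abs_le.1 (le_refl |t|)
  have c1 : μ * 1 ≤ μ * e := by gcongr; omega
  have c2 : μ * e ≤ μ * (p - 1) := by gcongr; omega
  have := Int.le_of_dvd (by linarith) hd2
  linarith

lemma cross_lt {B N i j x1 x2 y1 y2 : ℤ} (hN : 0 < N) (hij : j < i) (hj : 0 ≤ j)
    (hB : 2 * (j + 1) ≤ B) (h1 : 0 ≤ x1) (h2 : x2 ≤ N) (h3 : y1 ≤ N) (h3' : 0 ≤ y1) (h4 : 0 ≤ y2) :
    (x2 + j * (B * N)) * (y1 + B * N) < (x1 + i * (B * N)) * (y2 + B * N) := by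
  have hi : 0 ≤ i := by omega
  have hB0 : 0 < B := by omega
  have a1 : (j + 1) * (B * N) * (B * N) ≤ (x1 + i * (B * N)) * (y2 + B * N) := by
    apply mul_le_mul _ (by linarith) (by positivity) (by positivity)
    have : (j + 1) * (B * N) ≤ i * (B * N) := by gcongr; omega
    linarith
  have a2 : (x2 + j * (B * N)) * (y1 + B * N) ≤ (N + j * (B * N)) * (N + B * N) := by gcongr
  have a3 : (1 + j * B) * (1 + B) < (j + 1) * B * B := by
    have b1 : 2 * (j + 1) * B ≤ B * B := by gcongr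
    have b2 : 0 ≤ j * B := by positivity
    have b3 : 2 ≤ B := by omega
    linarith
  have a4 : (1 + j * B) * (1 + B) * (N * N) < (j + 1) * B * B * (N * N) := by gcongr
  linarith

lemma digits {R : ℕ} (hR : 0 < R) (p : ℕ) [Fact p.Prime] (hp : 24 * R ^ 3 ≤ p)
    (f g h : Fin R → Fin (p ^ 3) → ZMod p) (hF : ∀ a b c, a ≠ b → a ≠ c → b ≠ c →
      ∑ s, d3 (f s) (g s) (h s) a b c ≠ 0) (B : ℤ) (hB : B = (p : ℤ) ^ 10) (D : ℕ)
      (hD : D + 1 = 3 * 4 ^ R) :
    ∃ x y z : Fin (p ^ 3) → ℤ, (∀ a, 0 ≤ x a ∧ x a ≤ B ^ (D + 3)) ∧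
      (∀ a, 0 < y a ∧ y a ≤ B ^ (D + 3)) ∧ (∀ a, 0 ≤ z a ∧ z a ≤ B ^ (D + 2)) ∧
      (∀ a c, a ≠ c → x a * y c - x c * y a ≠ 0) ∧
      ∀ a b c, a ≠ b → a ≠ c → b ≠ c → ∃ Lo E : ℤ, d3 x y z a b c = Lo + B ^ (D + 1) * E ∧
        4 * |Lo| ≤ B ^ (D + 1) ∧ ¬ (p : ℤ) ∣ E := by
  have hpp : p.Prime := Fact.out
  have hR1 : (1 : ℤ) ≤ R := by exact_mod_cast hR
  have hp' : 24 * (R : ℤ) ^ 3 ≤ p := by exact_mod_cast hp
  have hR3 : (R : ℤ) ≤ R ^ 3 := le_self_pow₀ hR1 (by norm_num)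
  have hp1 : (24 : ℤ) ≤ p := by nlinarith
  have hp0 : (1 : ℤ) ≤ p := by linarith
  have hB1 : (p : ℤ) ^ 4 ≤ B := by rw [hB]; exact pow_le_pow_right₀ hp0 (by norm_num)
  have hp2 : (p : ℤ) ^ 2 ≤ p ^ 4 := pow_le_pow_right₀ hp0 (by norm_num)
  have hp3 : 24 * (p : ℤ) ^ 3 ≤ p ^ 4 := by
    calc 24 * (p : ℤ) ^ 3 ≤ p * p ^ 3 := by gcongr
      _ = _ := by ring
  have hp33 : (1 : ℤ) ≤ p ^ 3 := one_le_pow₀ hp0
  have hB0 : 1 ≤ B := by linarith
  have hRp : (R : ℤ) * p ≤ B := by nlinarith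
  let F : Fin R → Fin (p ^ 3) → ℤ := fun s a => ((f s a).val : ℤ)
  let G : Fin R → Fin (p ^ 3) → ℤ := fun s a => ((g s a).val : ℤ)
  let H : Fin R → Fin (p ^ 3) → ℤ := fun s a => ((h s a).val : ℤ)
  have hv : ∀ u : ZMod p, (0 : ℤ) ≤ u.val ∧ (u.val : ℤ) ≤ p :=
    fun u => ⟨by positivity, by exact_mod_cast (ZMod.val_lt u).le⟩
  have h4 : ∀ s : Fin R, 4 ^ (s : ℕ) ≤ 4 ^ R := fun s => Nat.pow_le_pow_right (by norm_num) s.2.le
  have h40 : 0 < 4 ^ R := by positivity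
  have bx := dig_bound (e := fun s : Fin R => 4 ^ (s : ℕ)) (F := F) hB0 (fun s a => hv _) (E := D)
    (fun s => by have := h4 s; omega) hRp
  have by' := dig_bound (e := fun s : Fin R => 2 * 4 ^ (s : ℕ)) (F := G) hB0 (fun s a => hv _)
    (E := D) (fun s => by have := h4 s; omega) hRp
  have bz := dig_bound (e := fun s : Fin R => D + 1 - 3 * 4 ^ (s : ℕ)) (F := H) hB0
    (fun s a => hv _) (E := D + 1) (fun s => by omega) hRp
  set x' := dig B (fun s : Fin R => 4 ^ (s : ℕ)) F with hx'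
  set y' := dig B (fun s : Fin R => 2 * 4 ^ (s : ℕ)) G with hy'
  set z := dig B (fun s : Fin R => D + 1 - 3 * 4 ^ (s : ℕ)) H with hz
  have hι : ∀ a : Fin (p ^ 3), (0 : ℤ) ≤ (a : ℕ) ∧ ((a : ℕ) : ℤ) + 1 ≤ p ^ 3 :=
    fun a => ⟨by positivity, by exact_mod_cast a.2⟩
  have hN : 0 < B ^ (D + 1) := by positivity
  have e2 : B ^ (D + 2) = B * B ^ (D + 1) := by ring
  have e3 : B ^ (D + 3) = B * (B * B ^ (D + 1)) := by ring
  refine ⟨fun a => x' a + (a : ℕ) * B ^ (D + 2), fun a => y' a + B ^ (D + 2), z, ?_, ?_, bz, ?_, ?_⟩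
  · intro a
    have h1 := bx a
    have h2 := hι a
    refine ⟨by have := h1.1; positivity, ?_⟩
    rw [e2, e3]
    generalize B ^ (D + 1) = N at *
    have a1 : N ≤ B * N := by nlinarith
    have a2 : (((a : ℕ) : ℤ) + 1) * (B * N) ≤ B * (B * N) := by gcongr; linarith
    linarith
  · intro a
    have := by' a
    refine ⟨by have := this.1; positivity, ?_⟩
    rw [e2, e3]
    generalize B ^ (D + 1) = N at *
    have a1 : N ≤ B * N := by nlinarith
    have a2 : 2 * (B * N) ≤ B * (B * N) := by gcongr; linarith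
    linarith
  · intro a c hac h0
    have xa := bx a
    have xc := bx c
    have ya := by' a
    have yc := by' c
    have ia := hι a
    have ic := hι c
    have hne : ((a : ℕ) : ℤ) ≠ (c : ℕ) := by
      intro h; apply hac; ext; exact_mod_cast h
    simp only at h0
    rw [e2] at h0
    generalize B ^ (D + 1) = N at *
    generalize ((a : ℕ) : ℤ) = i at *
    generalize ((c : ℕ) : ℤ) = j at *
    generalize x' a = x1 at *
    generalize x' c = x2 at *
    generalize y' a = y1 at *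
    generalize y' c = y2 at *
    rcases lt_or_gt_of_ne hne with hl | hl
    · have := cross_lt hN hl ia.1 (by linarith : 2 * (i + 1) ≤ B) xc.1 xa.2 yc.2 yc.1 ya.1
      linarith
    · have := cross_lt hN hl ic.1 (by linarith : 2 * (j + 1) ≤ B) xa.1 xc.2 ya.2 ya.1 yc.1
      linarith
  · intro a b c hab hac hbc
    obtain ⟨Lo, Hi, e, hLo⟩ := split_sum
      (fun i : Fin R × Fin R × Fin R => d3 (F i.1) (G i.2.1) (H i.2.2) a b c)
      (fun i => 4 ^ (i.1 : ℕ) + 2 * 4 ^ (i.2.1 : ℕ) + (D + 1 - 3 * 4 ^ (i.2.2 : ℕ))) B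
      (3 * (p * p * p)) hB0 D (fun i => d3_bound (fun _ => hv _) (fun _ => hv _) (fun _ => hv _) a b c)
    rw [← d3_dig B (fun s : Fin R => 4 ^ (s : ℕ)) (fun s : Fin R => 2 * 4 ^ (s : ℕ))
      (fun s : Fin R => D + 1 - 3 * 4 ^ (s : ℕ)) F G H, ← hx', ← hy', ← hz] at e
    have emid : (∑ i : Fin R × Fin R × Fin R,
        if 4 ^ (i.1 : ℕ) + 2 * 4 ^ (i.2.1 : ℕ) + (D + 1 - 3 * 4 ^ (i.2.2 : ℕ)) = D + 1 then
          d3 (F i.1) (G i.2.1) (H i.2.2) a b c else 0) = ∑ s, d3 (F s) (G s) (H s) a b c := by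
      rw [← Finset.sum_filter]
      symm
      apply Finset.sum_bij (fun s _ => (s, s, s))
      · intro s _
        have := h4 s
        simp only [Finset.mem_filter, Finset.mem_univ, true_and]
        omega
      · intro s _ s' _ h
        exact congrArg Prod.fst h
      · rintro ⟨s, s', s''⟩ hi
        simp only [Finset.mem_filter, Finset.mem_univ, true_and] at hi
        have := h4 s''
        obtain ⟨a1, a2⟩ := exp_eq (s := s) (s' := s') (s'' := s'') (by omega)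
        exact ⟨s'', Finset.mem_univ _, by rw [Fin.ext a1, Fin.ext a2]⟩
      · intro s _
        rfl
    rw [emid] at e
    refine ⟨Lo, ∑ s, d3 (F s) (G s) (H s) a b c + B * (Hi +
      d3 (fun a : Fin (p ^ 3) => ((a : ℕ) : ℤ)) (fun a => y' a + B ^ (D + 2)) z a b c
      + d3 x' (fun _ => 1) z a b c), ?_, ?_, ?_⟩
    · have : d3 (fun a => x' a + (a : ℕ) * B ^ (D + 2)) (fun a => y' a + B ^ (D + 2)) z a b c
          = d3 x' y' z a b c + B ^ (D + 2) *
            (d3 (fun a : Fin (p ^ 3) => ((a : ℕ) : ℤ)) (fun a => y' a + B ^ (D + 2)) z a b c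
            + d3 x' (fun _ => 1) z a b c) := by
        simp only [d3]; ring
      rw [this, e]; ring
    · simp only [Fintype.card_prod, Fintype.card_fin] at hLo
      push_cast at hLo
      have a1 : 12 * (R : ℤ) ^ 3 * p ^ 3 ≤ B := by
        calc 12 * (R : ℤ) ^ 3 * p ^ 3 ≤ (p : ℤ) * p ^ 3 := by gcongr; linarith
          _ = (p : ℤ) ^ 4 := by ring
          _ ≤ B := hB1
      calc 4 * |Lo| ≤ 4 * (R * (R * R) * (3 * (p * p * p) * B ^ D)) := by gcongr
        _ = (12 * (R : ℤ) ^ 3 * p ^ 3) * B ^ D := by ring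
        _ ≤ B * B ^ D := by gcongr
        _ = _ := by ring
    · intro hd
      have hpB : (p : ℤ) ∣ B := by rw [hB]; exact dvd_pow_self _ (by norm_num)
      have h1 := (dvd_add_left (hpB.mul_right _)).1 hd
      rw [← ZMod.intCast_zmod_eq_zero_iff_dvd] at h1
      apply hF a b c hab hac hbc
      rw [← h1]
      simp [d3, F, G, H]

lemma card_same (k ν : ℕ) : ((Finset.univ : Finset (Fin 3 → Fin k × Fin ν)).filter
    (fun τ => (τ 0).1 = (τ 1).1 ∨ (τ 0).1 = (τ 2).1 ∨ (τ 1).1 = (τ 2).1)).card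
      ≤ 3 * (k ^ 2 * ν ^ 3) := by
  have key : ∀ i j l : Fin 3, (∀ a : Fin 3, a = i ∨ a = j ∨ a = l) →
      ((Finset.univ : Finset (Fin 3 → Fin k × Fin ν)).filter
        (fun τ => (τ i).1 = (τ j).1)).card ≤ k ^ 2 * ν ^ 3 := by
    intro i j l h
    have : k ^ 2 * ν ^ 3 = (Finset.univ : Finset ((Fin k × Fin ν) × (Fin k × Fin ν) × Fin ν)).card := by
      simp; ring
    rw [this]
    apply Finset.card_le_card_of_injOn (fun τ => (τ i, τ l, (τ j).2)) (by simp)
    intro τ hτ τ' hτ' e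
    simp only [Finset.coe_filter, Finset.mem_univ, true_and, Set.mem_ofPred_eq, Prod.mk.injEq]
      at hτ hτ' e
    funext a
    rcases h a with rfl | rfl | rfl
    · exact e.1
    · exact Prod.ext (by rw [← hτ, ← hτ', e.1]) e.2.2
    · exact e.2.1
  rw [Finset.filter_or, Finset.filter_or]
  have a1 := key 0 1 2 (by decide)
  have a2 := key 0 2 1 (by decide)
  have a3 := key 1 2 0 (by decide)
  refine (Finset.card_union_le _ _).trans ?_
  have := Finset.card_union_le ((Finset.univ : Finset (Fin 3 → Fin k × Fin ν)).filter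
        (fun τ => (τ 0).1 = (τ 2).1)) ((Finset.univ : Finset (Fin 3 → Fin k × Fin ν)).filter
        (fun τ => (τ 1).1 = (τ 2).1))
  omega

lemma good_of {q : ℕ} [Fact q.Prime] {k ν : ℕ} (x y z : Fin k → ZMod q) (h : ℤ) (hh : 0 < h)
    (hν : ν ≤ q) (hy : ∀ a, y a ≠ 0) (hxy : ∀ a c, a ≠ c → x a * y c - x c * y a ≠ 0)
    (hd : ∀ i j l : Fin k × Fin ν, i.1 ≠ j.1 → i.1 ≠ l.1 → j.1 ≠ l.1 → ∀ t : ℤ, |t| < h →
      d3 (fun i : Fin k × Fin ν => x i.1) (fun i => y i.1) (fun i => z i.1 + (i.2 : ℕ)) i j l ≠ t) :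
    ∃ (S : Finset (Fin 3 → ZMod q)) (Same : Finset (Fin 3 → Fin 3 → ZMod q)), Good S Same h ∧
      S.card = k * ν ∧ Same.card ≤ 3 * (k ^ 2 * ν ^ 3) := by
  let s : Fin k × Fin ν → Fin 3 → ZMod q := fun i => ![x i.1, y i.1, z i.1 + (i.2 : ℕ)]
  have hcr : ∀ i j, i ≠ j → s i ⨯₃ s j ≠ 0 := by
    intro i j hij h0
    by_cases h1 : i.1 = j.1
    · have := congrFun h0 0
      simp [s, cross_apply] at this
      rw [← h1] at this
      have h2 : y i.1 * (((j.2 : ℕ) : ZMod q) - (i.2 : ℕ)) = 0 := by linear_combination this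
      have h3 := sub_eq_zero.1 ((mul_eq_zero.1 h2).resolve_left (hy _))
      rw [ZMod.natCast_eq_natCast_iff', Nat.mod_eq_of_lt (lt_of_lt_of_le j.2.2 hν),
        Nat.mod_eq_of_lt (lt_of_lt_of_le i.2.2 hν)] at h3
      exact hij (Prod.ext h1 (Fin.ext h3.symm))
    · have := congrFun h0 2
      simp [s, cross_apply] at this
      exact hxy _ _ h1 (by linear_combination this)
  have hinj : Function.Injective s := by
    intro i j h
    by_contra hne
    apply hcr i j hne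
    rw [h, cross_self]
  have hdet : ∀ τ : Fin 3 → Fin k × Fin ν, (Matrix.of fun i => s (τ i)).det =
      d3 (fun i : Fin k × Fin ν => x i.1) (fun i => y i.1) (fun i => z i.1 + (i.2 : ℕ))
        (τ 0) (τ 1) (τ 2) := by
    intro τ
    rw [Matrix.det_fin_three]
    simp [s, d3]
    ring
  have hlift : ∀ σ : Fin 3 → Fin 3 → ZMod q, (∀ i, σ i ∈ Finset.univ.image s) →
      ∃ τ : Fin 3 → Fin k × Fin ν, σ = fun i => s (τ i) := by
    intro σ hσ
    simp only [Finset.mem_image, Finset.mem_univ, true_and] at hσ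
    choose τ hτ using hσ
    exact ⟨τ, funext fun i => (hτ i).symm⟩
  have h2 : ∀ (a c : Fin k) (u v : ZMod q), u * x a + v * x c = 0 → u * y a + v * y c = 0 →
      u + v = 0 := by
    intro a c u v e1 e2
    by_cases hac : a = c
    · subst hac
      exact (mul_eq_zero.1 (by linear_combination e2 : (u + v) * y a = 0)).resolve_right (hy a)
    · have b1 : u * (x a * y c - x c * y a) = 0 := by linear_combination y c * e1 - x c * e2
      have b2 : v * (x a * y c - x c * y a) = 0 := by linear_combination x a * e2 - y a * e1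
      rw [(mul_eq_zero.1 b1).resolve_right (hxy a c hac),
        (mul_eq_zero.1 b2).resolve_right (hxy a c hac), add_zero]
  refine ⟨Finset.univ.image s, ((Finset.univ : Finset (Fin 3 → Fin k × Fin ν)).filter
    (fun τ => (τ 0).1 = (τ 1).1 ∨ (τ 0).1 = (τ 2).1 ∨ (τ 1).1 = (τ 2).1)).image
      (fun τ i => s (τ i)), ⟨?_, ?_, ?_, ?_⟩, ?_, Finset.card_image_le.trans (card_same k ν)⟩
  · intro σ hσ t ht e
    obtain ⟨τ, rfl⟩ := hlift σ hσ
    refine Finset.mem_image.2 ⟨τ, ?_, rfl⟩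
    rw [hdet] at e
    simp only [Finset.mem_filter, Finset.mem_univ, true_and]
    by_contra hcon
    push Not at hcon
    exact hd _ _ _ hcon.1 hcon.2.1 hcon.2.2 t ht e
  · intro σ hσ a b c e
    obtain ⟨τ, rfl⟩ := hlift σ hσ
    have e0 := congrFun e 0
    have e1 := congrFun e 1
    simp [s] at e0 e1
    by_cases h01 : (τ 0).1 = (τ 1).1
    · rw [← h01] at e0 e1
      exact h2 (τ 0).1 (τ 2).1 (a + b) c (by linear_combination e0) (by linear_combination e1)
    by_cases h02 : (τ 0).1 = (τ 2).1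
    · rw [← h02] at e0 e1
      have := h2 (τ 0).1 (τ 1).1 (a + c) b (by linear_combination e0) (by linear_combination e1)
      linear_combination this
    by_cases h12 : (τ 1).1 = (τ 2).1
    · rw [← h12] at e0 e1
      have := h2 (τ 0).1 (τ 1).1 a (b + c) (by linear_combination e0) (by linear_combination e1)
      linear_combination this
    have hne := hd _ _ _ h01 h02 h12 0 (by simpa using hh)
    rw [← hdet, Int.cast_zero] at hne
    have : (![a, b, c] : Fin 3 → ZMod q) = 0 := by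
      apply Matrix.eq_zero_of_vecMul_eq_zero hne
      rw [← e]
      funext j
      simp [Matrix.vecMul, dotProduct, Fin.sum_univ_three]
    have a0 := congrFun this 0
    have a1 := congrFun this 1
    have a2 := congrFun this 2
    simp at a0 a1 a2
    rw [a0, a1, a2]; ring
  · intro u hu u' hu' hne
    obtain ⟨i, -, rfl⟩ := Finset.mem_image.1 hu
    obtain ⟨j, -, rfl⟩ := Finset.mem_image.1 hu'
    exact hcr i j (fun h => hne (by rw [h]))
  · intro u hu h0
    obtain ⟨i, -, rfl⟩ := Finset.mem_image.1 hu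
    exact hy i.1 (congrFun h0 1)
  · rw [Finset.card_image_of_injective _ hinj]; simp

theorem structB : ∃ C p0 : ℕ, 0 < C ∧ ∀ p : ℕ, p.Prime → p0 ≤ p →
    ∃ (q : ℕ) (_ : Fact q.Prime) (S : Finset (Fin 3 → ZMod q))
      (Same : Finset (Fin 3 → Fin 3 → ZMod q)) (h : ℤ) (ν : ℕ), p ^ (2 * C) ≤ q ∧
      q ≤ 2 * p ^ (2 * C) ∧ Good S Same h ∧ 2 * h ≤ q ∧ (q : ℤ) ≤ 16 * p * h ∧ q ≤ ν ^ 2 ∧
      S.card = p ^ 3 * ν ∧ Same.card ≤ 3 * ((p ^ 3) ^ 2 * ν ^ 3) := by
  obtain ⟨R, hR, hA⟩ := algebraA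
  obtain ⟨D, hD⟩ : ∃ D, D + 1 = 3 * 4 ^ R := ⟨3 * 4 ^ R - 1, by
    have : 0 < 4 ^ R := by positivity
    omega⟩
  refine ⟨5 * (4 * D + 24), 24 * R ^ 3 + 5, by omega, fun p hp hp0 => ?_⟩
  haveI : Fact p.Prime := ⟨hp⟩
  obtain ⟨f, g, h, hF⟩ := hA p (by omega)
  obtain ⟨B, hB⟩ : ∃ B : ℤ, B = (p : ℤ) ^ 10 := ⟨_, rfl⟩
  obtain ⟨x, y, z, hx, hy, hz, hxy, hd⟩ := digits hR p (by omega) f g h hF B hB D hD
  obtain ⟨q, hq, hq1, hq2⟩ := Nat.exists_prime_lt_and_le_two_mul (p ^ (2 * (5 * (4 * D + 24))))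
    (pow_ne_zero _ hp.ne_zero)
  haveI : Fact q.Prime := ⟨hq⟩
  have eB : ((p ^ (2 * (5 * (4 * D + 24))) : ℕ) : ℤ) = B ^ (4 * D + 24) := by
    rw [hB, ← pow_mul]; push_cast; congr 1; ring
  have hq1' : B ^ (4 * D + 24) < q := by rw [← eB]; exact_mod_cast hq1
  have hq2' : (q : ℤ) ≤ 2 * B ^ (4 * D + 24) := by rw [← eB]; exact_mod_cast hq2
  have hp5 : (5 : ℤ) ≤ p := by exact_mod_cast (by omega : 5 ≤ p)
  have hpB : (p : ℤ) ^ 2 ≤ B := by rw [hB]; exact pow_le_pow_right₀ (by linarith) (by norm_num)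
  have hpB1 : (p : ℤ) ≤ B := by nlinarith
  have hB25 : 25 ≤ B := by nlinarith
  have hB1 : 1 ≤ B := by linarith
  have hle : ∀ (c : ℤ) (e e' : ℕ), c ≤ B → e + 1 ≤ e' → c * B ^ e ≤ B ^ e' := by
    intro c e e' hc he
    calc c * B ^ e ≤ B * B ^ e := by gcongr
      _ = B ^ (e + 1) := by ring
      _ ≤ _ := pow_le_pow_right₀ hB1 he
  have hpos : ∀ e : ℕ, 0 < B ^ e := fun e => by positivity
  have hM : 0 < (p : ℤ) * B ^ (D + 1) := by positivity
  obtain ⟨m, hm⟩ : ∃ m : ℤ, m = q / (p * B ^ (D + 1)) := ⟨_, rfl⟩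
  obtain ⟨r, hr⟩ : ∃ r : ℤ, r = q % (p * B ^ (D + 1)) := ⟨_, rfl⟩
  have hqe : (q : ℤ) = p * (m * B ^ (D + 1)) + r := by
    rw [hm, hr]; linarith [Int.emod_add_mul_ediv (q : ℤ) (p * B ^ (D + 1))]
  have hr0 : 0 ≤ r := hr ▸ Int.emod_nonneg _ hM.ne'
  have hr1 : r < p * B ^ (D + 1) := hr ▸ Int.emod_lt_of_pos _ hM
  have hm1 : B ^ (3 * D + 22) ≤ m := by
    rw [hm, Int.le_ediv_iff_mul_le hM]
    calc B ^ (3 * D + 22) * (p * B ^ (D + 1)) = p * B ^ (4 * D + 23) := by ring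
      _ ≤ B ^ (4 * D + 24) := hle _ _ _ hpB1 le_rfl
      _ ≤ q := hq1'.le
  have hm0 : 0 < m := lt_of_lt_of_le (hpos _) hm1
  obtain ⟨ν, hν⟩ : ∃ ν : ℕ, (ν : ℤ) = m / B ^ (D + 6) :=
    ⟨(m / B ^ (D + 6)).toNat, Int.toNat_of_nonneg (Int.ediv_nonneg hm0.le (hpos _).le)⟩
  have hν1 : B ^ (2 * D + 16) ≤ ν := by
    rw [hν, Int.le_ediv_iff_mul_le (hpos _)]
    calc B ^ (2 * D + 16) * B ^ (D + 6) = B ^ (3 * D + 22) := by ring
      _ ≤ m := hm1
  have hν2 : ν * B ^ (D + 6) ≤ m := by rw [hν]; exact Int.ediv_mul_le _ (hpos _).ne'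
  obtain ⟨μ, hμ⟩ : ∃ μ : ℤ, μ = m * B ^ (D + 1) := ⟨_, rfl⟩
  have hμ1 : B ^ (4 * D + 23) ≤ μ := by
    calc B ^ (4 * D + 23) = B ^ (3 * D + 22) * B ^ (D + 1) := by ring
      _ ≤ m * B ^ (D + 1) := by gcongr
      _ = μ := hμ.symm
  have hμ4 : 4 ≤ μ := by
    have := hle 4 0 (4 * D + 23) (by linarith) (by omega)
    linarith
  have hμq : μ ≤ q := by rw [hqe, ← hμ]; nlinarith
  have hmμ : m ≤ μ := by rw [hμ]; exact le_mul_of_one_le_right hm0.le (hpos _)
  have hνq : (ν : ℤ) ≤ q := by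
    have : (ν : ℤ) ≤ ν * B ^ (D + 6) := le_mul_of_one_le_right (by positivity) (hpos _)
    linarith
  obtain ⟨S, Same, hG, hS, hSame⟩ := good_of (q := q) (ν := ν) (fun a => (x a : ZMod q))
    (fun a => (y a : ZMod q)) (fun a => ((m * z a : ℤ) : ZMod q)) (μ / 4) (by omega)
    (by exact_mod_cast hνq) (by
      intro a h0
      rw [ZMod.intCast_zmod_eq_zero_iff_dvd] at h0
      have := Int.le_of_dvd (hy a).1 h0
      have := (hy a).2
      have : B ^ (D + 3) ≤ B ^ (4 * D + 24) := pow_le_pow_right₀ hB1 (by omega)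
      linarith) (by
      intro a c hac h0
      have h1 : ((x a * y c - x c * y a : ℤ) : ZMod q) = 0 := by push_cast; exact h0
      rw [ZMod.intCast_zmod_eq_zero_iff_dvd] at h1
      apply hxy a c hac
      apply Int.eq_zero_of_abs_lt_dvd h1
      have b : ∀ a c, 0 ≤ x a * y c ∧ x a * y c ≤ B ^ (4 * D + 24) := fun a c =>
        ⟨mul_nonneg (hx a).1 (hy c).1.le, by
          calc x a * y c ≤ B ^ (D + 3) * B ^ (D + 3) :=
                mul_le_mul (hx a).2 (hy c).2 (hy c).1.le (hpos _).le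
            _ = B ^ (2 * D + 6) := by ring
            _ ≤ _ := pow_le_pow_right₀ hB1 (by omega)⟩
      have := b a c
      have := b c a
      rw [abs_lt]
      constructor <;> linarith) (by
      intro i j l h1 h2 h3 t ht e
      obtain ⟨Lo, E, e1, hLo, hE⟩ := hd _ _ _ h1 h2 h3
      have b1 := d3_bound hx (fun a => ⟨(hy a).1.le, (hy a).2⟩) hz i.1 j.1 l.1
      have b2 := d3_bound (f := fun i : Fin (p ^ 3) × Fin ν => x i.1) (g := fun i => y i.1)
        (h := fun i => ((i.2 : ℕ) : ℤ)) (W := ν) (fun a => hx a.1)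
        (fun a => ⟨(hy a.1).1.le, (hy a.1).2⟩)
        (fun a => ⟨by positivity, by exact_mod_cast a.2.2.le⟩) i j l
      refine core (q := q) (p := p) (μ := μ) (r := r) (E := E) (err1 := m * Lo)
        (err2 := d3 (fun i : Fin (p ^ 3) × Fin ν => x i.1) (fun i => y i.1)
          (fun i => ((i.2 : ℕ) : ℤ)) i j l) (t := t) (U := B ^ (3 * D + 9)) (by linarith)
        (by rw [hμ]; exact hqe) hr0 rfl hE ?_ ?_ ?_ ?_ (by omega) ?_
      · have c1 : |E| ≤ |B ^ (D + 1) * E| := by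
          rw [abs_mul, abs_of_pos (hpos _)]
          exact le_mul_of_one_le_left (abs_nonneg _) (hpos _)
        have c2 : B ^ (D + 1) * E = d3 x y z i.1 j.1 l.1 - Lo := by linarith
        have c3 := abs_sub (d3 x y z i.1 j.1 l.1) Lo
        have c4 : B ^ (D + 3) * B ^ (D + 3) * B ^ (D + 2) = B ^ (3 * D + 8) := by ring
        have c5 : B ^ (D + 1) ≤ B ^ (3 * D + 8) := pow_le_pow_right₀ hB1 (by omega)
        have c6 := hle p 0 (3 * D + 8) hpB1 (by omega)
        have c7 := hle 5 (3 * D + 8) (3 * D + 9) (by linarith) le_rfl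
        have c8 := abs_nonneg Lo
        rw [c4] at b1
        rw [c2] at c1
        linarith
      · rw [abs_mul, abs_of_pos hm0, hμ]
        calc 4 * (m * |Lo|) = m * (4 * |Lo|) := by ring
          _ ≤ _ := by gcongr
      · calc _ ≤ 8 * (3 * (B ^ (D + 3) * B ^ (D + 3) * ν)) := by gcongr
          _ = (24 * B ^ (2 * D + 6)) * ν := by ring
          _ ≤ B ^ (2 * D + 7) * ν := by
              gcongr; exact hle _ _ _ (by linarith) le_rfl
          _ = (ν * B ^ (D + 6)) * B ^ (D + 1) := by ring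
          _ ≤ m * B ^ (D + 1) := by gcongr
          _ = μ := hμ.symm
      · have c1 := hle p (D + 1) (D + 2) hpB1 le_rfl
        calc 8 * (B ^ (3 * D + 9) * r) ≤ 8 * (B ^ (3 * D + 9) * B ^ (D + 2)) := by
              gcongr; linarith
          _ = 8 * B ^ (4 * D + 11) := by ring
          _ ≤ B ^ (4 * D + 23) := hle _ _ _ (by linarith) (by omega)
          _ ≤ μ := hμ1
      · rw [← ZMod.intCast_eq_intCast_iff_dvd_sub, ← e]
        have : μ * E + m * Lo = m * d3 x y z i.1 j.1 l.1 := by rw [e1, hμ]; ring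
        rw [this]
        simp only [d3]
        push_cast
        ring)
  refine ⟨q, inferInstance, S, Same, μ / 4, ν, hq1.le, hq2, hG, by omega, ?_, ?_, hS, hSame⟩
  · have a1 : μ ≤ 8 * (μ / 4) := by omega
    have a2 : B ^ (D + 1) ≤ μ := by rw [hμ]; exact le_mul_of_one_le_left (hpos _).le hm0
    have a3 : (p : ℤ) * B ^ (D + 1) ≤ p * μ := by gcongr
    have a4 : (p : ℤ) * μ ≤ p * (8 * (μ / 4)) := by gcongr
    rw [← hμ] at hqe
    linarith
  · have : (q : ℤ) ≤ (ν : ℤ) ^ 2 := by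
      calc (q : ℤ) ≤ 2 * B ^ (4 * D + 24) := hq2'
        _ ≤ B ^ (4 * D + 32) := hle _ _ _ (by linarith) (by omega)
        _ = (B ^ (2 * D + 16)) ^ 2 := by ring
        _ ≤ _ := by gcongr
    exact_mod_cast this

end Vale.Agent.P036
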