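import Vale.Agent.P036.Digits
import Vale.Agent.P036.Defs

namespace Vale.Agent.P036

open Finset Matrix Filter

lemma many_primes (Z : ℕ) (hZ : 10 ^ 6 ≤ Z) : ∃ Pr : Finset ℤ,
    (∀ z ∈ Pr, Prime z ∧ (Z : ℤ) < z ∧ z ≤ 8 * Z) ∧ (Z : ℝ) ≤ Pr.card * Real.log (8 * Z) := by
  refine ⟨(Nat.primesLE (8 * Z) \ Nat.primesLE Z).image (fun n : ℕ => (n : ℤ)), ?_, ?_⟩
  · intro z hz
    obtain ⟨n, hn, rfl⟩ := Finset.mem_image.1 hz
    simp only [Finset.mem_sdiff, Nat.mem_primesLE, not_and] at hn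
    refine ⟨Nat.prime_iff_prime_int.1 hn.1.2, ?_, by exact_mod_cast hn.1.1⟩
    by_contra h
    exact hn.2 (by omega) hn.1.2
  · rw [Finset.card_image_of_injective _ Nat.cast_injective]
    have hsub : Nat.primesLE Z ⊆ Nat.primesLE (8 * Z) := by
      intro n hn
      simp only [Nat.mem_primesLE] at hn ⊢
      exact ⟨by omega, hn.2⟩
    have h1 := Chebyshev.theta_ge (8 * Z)
    have h2 := Chebyshev.theta_le_log4_mul_x (x := Z) (by positivity)
    rw [Chebyshev.theta_eq_sum_primesLE_log] at h1 h2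
    rw [← Finset.sum_sdiff hsub] at h1
    have hZ' : (10 : ℝ) ^ 6 ≤ Z := by exact_mod_cast hZ
    have h3 : ∑ p ∈ Nat.primesLE (8 * Z) \ Nat.primesLE Z, Real.log p
        ≤ (Nat.primesLE (8 * Z) \ Nat.primesLE Z).card * Real.log (8 * Z) := by
      rw [← nsmul_eq_mul]
      apply Finset.sum_le_card_nsmul
      intro n hn
      simp only [Finset.mem_sdiff, Nat.mem_primesLE] at hn
      apply Real.log_le_log (by exact_mod_cast hn.1.2.pos)
      exact_mod_cast hn.1.1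
    push_cast at h1
    have h4 : Real.log 4 = 2 * Real.log 2 := by
      rw [show (4 : ℝ) = 2 ^ 2 by norm_num, Real.log_pow]; norm_num
    have h5 := Real.log_two_gt_d9
    have h5' := Real.log_two_lt_d9
    obtain ⟨y, hy0, hy⟩ : ∃ y : ℝ, 0 < y ∧ y ^ 4 = 8 * Z :=
      ⟨√(√(8 * Z)), by positivity, by
        rw [show (4 : ℕ) = 2 * 2 by norm_num, pow_mul, Real.sq_sqrt (by positivity),
          Real.sq_sqrt (by positivity)]⟩
    have hy30 : 30 ≤ y := by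
      by_contra h
      have : y ^ 4 ≤ 30 ^ 4 := by gcongr; linarith
      linarith
    have h6 : Real.log (8 * Z) ≤ 4 * y := by
      rw [← hy, Real.log_pow]
      have := Real.log_le_sub_one_of_pos hy0
      push_cast; linarith
    have h7 : Real.log (8 * Z + 1) ≤ 1 + 4 * y := by
      calc Real.log (8 * Z + 1) ≤ Real.log (2 * (8 * Z)) := Real.log_le_log (by positivity) (by linarith)
        _ = Real.log 2 + Real.log (8 * Z) := Real.log_mul (by norm_num) (by positivity)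
        _ ≤ _ := by linarith
    have h8 : √(8 * Z : ℝ) = y ^ 2 := by
      rw [← hy, show y ^ 4 = (y ^ 2) ^ 2 by ring, Real.sqrt_sq (by positivity)]
    rw [h8] at h1
    have h9 : 2 * y ^ 2 * Real.log (8 * Z) ≤ 2 * y ^ 2 * (4 * y) := by gcongr
    have h10 : 30 * y ^ 3 ≤ y ^ 4 := by
      calc 30 * y ^ 3 ≤ y * y ^ 3 := by gcongr
        _ = _ := by ring
    have h11 : 900 * y ≤ y ^ 3 := by
      calc 900 * y = 30 ^ 2 * y := by ring
        _ ≤ y ^ 2 * y := by gcongr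
        _ = _ := by ring
    have h12 : (0.69 : ℝ) * Z ≤ Real.log 2 * Z := by gcongr; linarith
    rw [h4] at h2
    linarith

lemma area_le_one {p q r : ℝ × ℝ} (hp : p.1 ∈ Set.Icc (0 : ℝ) 1 ∧ p.2 ∈ Set.Icc (0 : ℝ) 1)
    (hq : q.1 ∈ Set.Icc (0 : ℝ) 1 ∧ q.2 ∈ Set.Icc (0 : ℝ) 1)
    (hr : r.1 ∈ Set.Icc (0 : ℝ) 1 ∧ r.2 ∈ Set.Icc (0 : ℝ) 1) : area p q r ≤ 1 := by
  have k : ∀ a b c d : ℝ, a ∈ Set.Icc (0 : ℝ) 1 → b ∈ Set.Icc (0 : ℝ) 1 → c ∈ Set.Icc (0 : ℝ) 1 →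
      d ∈ Set.Icc (0 : ℝ) 1 → |(a - b) * (c - d)| ≤ 1 := by
    intro a b c d ha hb hc hd
    rw [abs_mul]
    apply mul_le_one₀ _ (abs_nonneg _) <;> rw [abs_le] <;> constructor <;>
      linarith [ha.1, ha.2, hb.1, hb.2, hc.1, hc.2, hd.1, hd.2]
  have a := k _ _ _ _ hq.1 hp.1 hr.2 hp.2
  have b := k _ _ _ _ hq.2 hp.2 hr.1 hp.1
  have := abs_sub ((q.1 - p.1) * (r.2 - p.2)) ((q.2 - p.2) * (r.1 - p.1))
  unfold area
  linarith

lemma le_Delta (P : Finset (ℝ × ℝ))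
    (hP : ∀ p ∈ P, p.1 ∈ Set.Icc (0 : ℝ) 1 ∧ p.2 ∈ Set.Icc (0 : ℝ) 1) : minArea P ≤ Delta P.card := by
  apply le_csSup
  · refine ⟨1, ?_⟩
    rintro a ⟨Q, hQ, -, rfl⟩
    unfold minArea
    rcases Set.eq_empty_or_nonempty {a : ℝ | ∃ p ∈ Q, ∃ q ∈ Q, ∃ r ∈ Q,
      p ≠ q ∧ p ≠ r ∧ q ≠ r ∧ a = area p q r} with h | ⟨a, ha⟩
    · rw [h]; simp
    · refine csInf_le_of_le ⟨0, ?_⟩ ha ?_
      · rintro b ⟨p, -, q, -, r, -, -, -, -, rfl⟩
        unfold area; positivity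
      · obtain ⟨p, hp, q, hq, r, hr, -, -, -, rfl⟩ := ha
        exact area_le_one (hQ p hp) (hQ q hq) (hQ r hr)
  · exact ⟨P, hP, rfl, rfl⟩

/-- the point of the plane attached to an integer vector -/
noncomputable def pt (v : V) : ℝ × ℝ := ((v 0 : ℝ) / (8 * v 2), (v 1 : ℝ) / (8 * v 2))

lemma Delta_ge (U : Finset V) (Z h : ℤ) (hZ : 0 < Z) (hh : 0 < h) (h3 : 3 ≤ U.card)
    (hU : ∀ v ∈ U, IsPt Z v)
    (hd : ∀ M : Fin 3 → V, (∀ i, M i ∈ U) → Function.Injective M → h ≤ |dt M|) :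
    (h : ℝ) / (65536 * Z ^ 3) ≤ Delta U.card := by
  classical
  have hZ' : (0 : ℝ) < Z := by exact_mod_cast hZ
  have hh' : (0 : ℝ) < h := by exact_mod_cast hh
  have hz : ∀ v ∈ U, (Z : ℝ) < v 2 ∧ (v 2 : ℝ) ≤ 8 * Z := fun v hv =>
    ⟨by exact_mod_cast (hU v hv).2.2.2.1, by exact_mod_cast (hU v hv).2.2.2.2⟩
  have key : ∀ u ∈ U, ∀ v ∈ U, ∀ w ∈ U, u ≠ v → u ≠ w → v ≠ w →
      (h : ℝ) / (65536 * Z ^ 3) ≤ area (pt u) (pt v) (pt w) := by
    intro u hu v hv w hw h1 h2 h3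
    have a := hd ![u, v, w] (fun i => by fin_cases i <;> simpa) (by
      intro i j hij
      fin_cases i <;> fin_cases j <;> simp_all)
    have a' : (h : ℝ) ≤ |(dt ![u, v, w] : ℝ)| := by exact_mod_cast a
    have zu := hz u hu
    have zv := hz v hv
    have zw := hz w hw
    have pu : (0 : ℝ) < u 2 := hZ'.trans zu.1
    have pv : (0 : ℝ) < v 2 := hZ'.trans zv.1
    have pw : (0 : ℝ) < w 2 := hZ'.trans zw.1
    have e : area (pt u) (pt v) (pt w) = |(dt ![u, v, w] : ℝ)| / (128 * (u 2 * v 2 * w 2)) := by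
      have : ((pt v).1 - (pt u).1) * ((pt w).2 - (pt u).2)
          - ((pt v).2 - (pt u).2) * ((pt w).1 - (pt u).1)
          = (dt ![u, v, w] : ℝ) / (64 * (u 2 * v 2 * w 2)) := by
        simp [pt, dt, col, cross_apply, dotProduct, Fin.sum_univ_three]
        field_simp
        ring
      rw [area, this, abs_div, abs_of_pos (by positivity : (0 : ℝ) < 64 * (u 2 * v 2 * w 2))]
      field_simp
      ring
    rw [e]
    apply div_le_div₀ (abs_nonneg _) a' (by positivity)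
    calc (128 : ℝ) * (u 2 * v 2 * w 2) ≤ 128 * ((8 * Z) * (8 * Z) * (8 * Z)) := by
          gcongr
          · exact zu.2
          · exact zv.2
          · exact zw.2
      _ = _ := by ring
  have hinj : Set.InjOn pt U := by
    intro u hu v hv e
    by_contra hne
    obtain ⟨w, hw, hw2⟩ : ∃ w ∈ U, w ∉ ({u, v} : Finset V) :=
      Finset.exists_mem_notMem_of_card_lt_card (lt_of_le_of_lt Finset.card_le_two (by omega))
    simp only [Finset.mem_insert, Finset.mem_singleton, not_or] at hw2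
    have := key u hu v hv w hw hne (Ne.symm hw2.1) (Ne.symm hw2.2)
    rw [e] at this
    simp only [area, sub_self, zero_mul, abs_zero, zero_div] at this
    have : (0 : ℝ) < (h : ℝ) / (65536 * Z ^ 3) := by positivity
    linarith
  have hc : (U.image pt).card = U.card := Finset.card_image_of_injOn hinj
  rw [← hc]
  refine le_trans ?_ (le_Delta _ ?_)
  · apply le_csInf
    · obtain ⟨p, hp, q, hq, r, hr, h1⟩ := Finset.two_lt_card.1 (by omega : 2 < (U.image pt).card)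
      exact ⟨_, p, hp, q, hq, r, hr, h1.1, h1.2.1, h1.2.2, rfl⟩
    · rintro a ⟨p, hp, q, hq, r, hr, h1, h2, h3, rfl⟩
      obtain ⟨u, hu, rfl⟩ := Finset.mem_image.1 hp
      obtain ⟨v, hv, rfl⟩ := Finset.mem_image.1 hq
      obtain ⟨w, hw, rfl⟩ := Finset.mem_image.1 hr
      exact key u hu v hv w hw (fun h => h1 (by rw [h])) (fun h => h2 (by rw [h]))
        (fun h => h3 (by rw [h]))
  · intro p hp
    obtain ⟨u, hu, rfl⟩ := Finset.mem_image.1 hp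
    have zu := hz u hu
    have pu : (0 : ℝ) < u 2 := hZ'.trans zu.1
    obtain ⟨⟨a1, a2⟩, ⟨b1, b2⟩, -⟩ := hU u hu
    have a1' : (0 : ℝ) ≤ u 0 := by exact_mod_cast a1
    have b1' : (0 : ℝ) ≤ u 1 := by exact_mod_cast b1
    have a2' : (u 0 : ℝ) < 8 * Z := by exact_mod_cast a2
    have b2' : (u 1 : ℝ) < 8 * Z := by exact_mod_cast b2
    refine ⟨⟨by simp only [pt]; positivity, ?_⟩, ⟨by simp only [pt]; positivity, ?_⟩⟩ <;>
      simp only [pt] <;> rw [div_le_one (by positivity)] <;> linarith [zu.1]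

lemma log_small (K : ℝ) : ∃ p0 : ℕ, ∀ p : ℕ, p0 ≤ p → K * Real.log p ^ 4 ≤ p := by
  have h := (Real.isLittleO_pow_log_id_atTop (n := 4)).const_mul_left K
  have h2 := (h.comp_tendsto tendsto_natCast_atTop_atTop).eventuallyLE
  obtain ⟨p0, hp⟩ := Filter.eventually_atTop.1 h2
  refine ⟨p0, fun p h => ?_⟩
  have := hp p h
  simp only [Function.comp, id, Real.norm_eq_abs, Nat.abs_cast] at this
  exact (le_abs_self _).trans this

theorem main_p : ∃ e p1 : ℕ, 0 < e ∧ ∀ p : ℕ, p.Prime → p1 ≤ p → ∀ n : ℕ, 3 ≤ n → n ≤ p ^ e →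
    (p : ℝ) / (2 ^ 20 * p ^ (2 * e)) ≤ Delta n := by
  obtain ⟨C, p0, hC, hB⟩ := structB
  obtain ⟨p2, hp2⟩ := log_small (10 ^ 13 * (10 * C + 11) ^ 4)
  refine ⟨14 * C + 13, p0 + p2 + 10 ^ 6, by omega, fun p hp hp1 n hn3 hn => ?_⟩
  obtain ⟨q, _, S, Same, h, ν, hq1, hq2, hG, hh1, hh2, hν, hS, hSame⟩ := hB p hp (by omega)
  have hqp : q.Prime := Fact.out
  have hlog := hp2 p (by omega)
  obtain ⟨Z, hZ⟩ : ∃ Z : ℕ, Z = p ^ (10 * C + 8) := ⟨_, rfl⟩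
  have hpZ : p ≤ Z := by rw [hZ]; exact Nat.le_self_pow (by omega) p
  obtain ⟨Pr, hPr, hPrc⟩ := many_primes Z (by omega)
  obtain ⟨l, hl, hl1, hl2⟩ := Nat.exists_prime_lt_and_le_two_mul (8 * Z) (by omega)
  have : Fact l.Prime := ⟨hl⟩
  have hp' : (10 : ℝ) ^ 6 ≤ p := by exact_mod_cast (by omega : 10 ^ 6 ≤ p)
  have hp0 : (0 : ℝ) < p := by linarith
  have hp1' : (1 : ℝ) ≤ p := by linarith
  have hZ' : (Z : ℝ) = p ^ (10 * C + 8) := by exact_mod_cast hZ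
  have hZ0 : (0 : ℝ) < Z := by rw [hZ']; positivity
  have hlp : 1 ≤ Real.log p := by
    rw [Real.le_log_iff_exp_le hp0]
    linarith [Real.exp_one_lt_d9]
  obtain ⟨L, hL⟩ : ∃ L, L = Real.log (8 * Z) := ⟨_, rfl⟩
  have hL8 : Real.log 8 ≤ 3 := by
    rw [show (8 : ℝ) = 2 ^ 3 by norm_num, Real.log_pow]
    have := Real.log_two_lt_d9
    push_cast; linarith
  have hLe : L = Real.log 8 + (10 * C + 8) * Real.log p := by
    rw [hL, Real.log_mul (by norm_num) hZ0.ne', hZ', Real.log_pow]; push_cast; ring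
  have hC0 : (0 : ℝ) ≤ C := by positivity
  have hL1 : 1 ≤ L := by
    have : 0 ≤ Real.log 8 := Real.log_nonneg (by norm_num)
    nlinarith
  have hL2 : L ≤ (10 * C + 11) * Real.log p := by linarith
  have hL4 : 10 ^ 13 * L ^ 4 ≤ p := by
    calc 10 ^ 13 * L ^ 4 ≤ 10 ^ 13 * ((10 * C + 11) * Real.log p) ^ 4 := by gcongr
      _ = 10 ^ 13 * (10 * C + 11) ^ 4 * Real.log p ^ 4 := by ring
      _ ≤ p := hlog
  have hLp : L ≤ p := by
    have : L ≤ L ^ 4 := le_self_pow₀ hL1 (by norm_num)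
    linarith
  rw [← hL] at hPrc
  obtain ⟨J, hJ⟩ : ∃ J : ℕ, J = ⌈4 * L⌉₊ := ⟨_, rfl⟩
  have hJ1 : 4 * L ≤ J := hJ ▸ Nat.le_ceil _
  have hJ2 : (J : ℝ) ≤ 5 * L := by
    have := Nat.ceil_lt_add_one (a := 4 * L) (by linarith)
    rw [hJ]; linarith
  have hJ3 : 64 * (Z : ℤ) ^ 2 < 2 ^ J := by
    have : 64 * (Z : ℝ) ^ 2 < 2 ^ J := by
      rw [← Real.log_lt_log_iff (by positivity) (by positivity), Real.log_pow,
        show 64 * (Z : ℝ) ^ 2 = (8 * Z) ^ 2 by ring, Real.log_pow, ← hL]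
      have := Real.log_two_gt_d9
      push_cast
      nlinarith
    exact_mod_cast this
  have hq1' : (p : ℝ) ^ (2 * C) ≤ q := by exact_mod_cast hq1
  have hq2' : (q : ℝ) ≤ 2 * p ^ (2 * C) := by exact_mod_cast hq2
  have hq0 : (0 : ℝ) < q := by exact_mod_cast hqp.pos
  have hν' : (q : ℝ) ≤ ν ^ 2 := by exact_mod_cast hν
  have hν1 : (1 : ℝ) ≤ ν := by
    have : 0 < ν := by
      rcases Nat.eq_zero_or_pos ν with rfl | h
      · have := hqp.pos; simp at hν; omega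
      · exact h
    exact_mod_cast this
  have hS' : (S.card : ℝ) = p ^ 3 * ν := by exact_mod_cast hS
  have hn' : (n : ℝ) ≤ p ^ (14 * C + 13) := by exact_mod_cast hn
  have hPr' : (Z : ℝ) / L ≤ Pr.card := by rw [div_le_iff₀ (by linarith)]; exact hPrc
  have hp3 : (1 : ℝ) ≤ p ^ 3 := one_le_pow₀ hp1'
  have hh0 : 0 < h := by
    by_contra hcon
    have : (16 * p : ℤ) * h ≤ 0 := mul_nonpos_of_nonneg_of_nonpos (by positivity) (not_lt.1 hcon)
    have := hqp.pos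
    omega
  obtain ⟨U, hUc, hU, hd⟩ := select (q := q) (l := l) hG Z (by
      have : (q : ℝ) ^ 2 ≤ Z := by
        calc (q : ℝ) ^ 2 ≤ (2 * (p : ℝ) ^ (2 * C)) ^ 2 := by gcongr
          _ = 4 * (p : ℝ) ^ (4 * C) := by ring
          _ ≤ (p : ℝ) * p ^ (4 * C) := by gcongr; linarith
          _ = (p : ℝ) ^ (4 * C + 1) := by ring
          _ ≤ (p : ℝ) ^ (10 * C + 8) := pow_le_pow_right₀ hp1' (by omega)
          _ = Z := hZ'.symm
      exact_mod_cast this) hh1 (by exact_mod_cast hl1) (by exact_mod_cast (by omega : l ≤ 16 * Z))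
    J hJ3 (3 * ((p ^ 3) ^ 2 * ν ^ 3)) (by exact_mod_cast hSame) (by
      rw [hS']
      calc (p : ℝ) ^ 3 * ν * q ≤ p ^ 3 * ν * (3 * p ^ 3 * ν ^ 2) := by
            gcongr
            nlinarith
        _ = _ := by ring) Pr hPr n (by omega) (by
      rw [hS', le_div_iff₀ (by positivity)]
      push_cast
      calc 4 * (n : ℝ) * q ^ 3 ≤ 4 * (p : ℝ) ^ (14 * C + 13) * (2 * p ^ (2 * C)) ^ 3 := by gcongr
        _ = 32 * (p : ℝ) ^ (20 * C + 13) := by ring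
        _ ≤ (p : ℝ) * p ^ (20 * C + 13) := by gcongr; linarith
        _ = (p : ℝ) ^ (20 * C + 14) := by ring
        _ ≤ (p : ℝ) ^ (20 * C + 15) := pow_le_pow_right₀ hp1' (by omega)
        _ = (Z : ℝ) * (Z / p) * (1 * 1) := by rw [hZ']; field_simp; ring
        _ ≤ (Z : ℝ) * (Z / L) * (1 * 1) := by gcongr
        _ ≤ _ := by gcongr) (by
      rw [hS']
      push_cast
      calc 64 * (n : ℝ) ^ 2 * (4 * 10 ^ 9 * (3 * ((p ^ 3) ^ 2 * ν ^ 3)) * J * Z ^ 3 / q ^ 8)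
          = (768 * 10 ^ 9 * n ^ 2 * J * q * L ^ 3) * (p ^ 6 * ν ^ 3 * Z ^ 3 / (q ^ 9 * L ^ 3)) := by
            field_simp; ring
        _ ≤ (768 * 10 ^ 9 * (p ^ (14 * C + 13)) ^ 2 * (5 * L) * (2 * p ^ (2 * C)) * L ^ 3)
            * (p ^ 6 * ν ^ 3 * Z ^ 3 / (q ^ 9 * L ^ 3)) := by gcongr
        _ = ((768 * 10 ^ 10 * L ^ 4) * p ^ (30 * C + 26))
            * (p ^ 6 * ν ^ 3 * Z ^ 3 / (q ^ 9 * L ^ 3)) := by ring
        _ ≤ (p * p ^ (30 * C + 26)) * (p ^ 6 * ν ^ 3 * Z ^ 3 / (q ^ 9 * L ^ 3)) := by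
            gcongr
            have : 0 ≤ L ^ 4 := by positivity
            linarith
        _ = (Z ^ 3 * p ^ 3) * (p ^ 6 * ν ^ 3 * Z ^ 3 / (q ^ 9 * L ^ 3)) := by
            congr 1; rw [hZ']; ring
        _ = (Z * (Z / L) * (p ^ 3 * ν) / q ^ 3) ^ 3 := by field_simp
        _ ≤ _ := by gcongr)
  have := Delta_ge U Z h (by exact_mod_cast hZ0) hh0 (by omega) hU hd
  rw [hUc] at this
  refine le_trans ?_ this
  have hh2' : (q : ℝ) ≤ 16 * p * h := by exact_mod_cast hh2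
  push_cast
  rw [div_le_div_iff₀ (by positivity) (by positivity), hZ']
  calc (p : ℝ) * (65536 * (p ^ (10 * C + 8)) ^ 3)
      = p ^ (2 * C) * (65536 * p ^ (28 * C + 25)) := by ring
    _ ≤ (16 * p * h) * (65536 * p ^ (28 * C + 25)) := by gcongr; linarith
    _ = _ := by ring

theorem lower : ∃ c : ℝ, 0 < c ∧ ∃ n0 : ℕ, ∀ n ≥ n0, (n : ℝ) ^ (-2 + c) ≤ Delta n := by
  obtain ⟨e, p1, he, hmain⟩ := main_p
  have he' : (0 : ℝ) < e := by exact_mod_cast he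
  have ht : Tendsto (fun n : ℕ => (n : ℝ) ^ (1 / (2 * e) : ℝ)) atTop atTop :=
    (tendsto_rpow_atTop (by positivity)).comp tendsto_natCast_atTop_atTop
  obtain ⟨n0, hn0⟩ := Filter.eventually_atTop.1
    (ht.eventually_ge_atTop (2 ^ 20 * 4 ^ (2 * e) + p1))
  refine ⟨1 / (2 * e), by positivity, n0 + 3, fun n hn => ?_⟩
  have h1 := hn0 n (by omega)
  have hn' : (0 : ℝ) < n := by exact_mod_cast (by omega : 0 < n)
  obtain ⟨y, hy⟩ : ∃ y : ℝ, y = (n : ℝ) ^ (1 / (2 * e) : ℝ) := ⟨_, rfl⟩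
  rw [← hy] at h1
  have hK : (1 : ℝ) ≤ 2 ^ 20 * 4 ^ (2 * e) :=
    one_le_mul_of_one_le_of_one_le (by norm_num) (one_le_pow₀ (by norm_num))
  have hp1 : (0 : ℝ) ≤ p1 := by positivity
  have hy1 : 1 ≤ y := by linarith
  have hyn : (y ^ 2) ^ e = n := by
    rw [← pow_mul, hy, ← Real.rpow_natCast, ← Real.rpow_mul hn'.le]
    push_cast
    rw [one_div_mul_cancel (by positivity), Real.rpow_one]
  have hy2 : y ≤ y ^ 2 := le_self_pow₀ hy1 (by norm_num)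
  obtain ⟨p, hp, hp2, hp3⟩ := Nat.exists_prime_lt_and_le_two_mul ⌈y ^ 2⌉₊
    (Nat.ceil_pos.2 (by positivity)).ne'
  have a1 : y ^ 2 ≤ p := (Nat.le_ceil _).trans (by exact_mod_cast hp2.le)
  have a2 : (p : ℝ) ≤ 4 * y ^ 2 := by
    have b1 : (p : ℝ) ≤ 2 * ⌈y ^ 2⌉₊ := by exact_mod_cast hp3
    have b2 := Nat.ceil_lt_add_one (a := y ^ 2) (by positivity)
    linarith
  have h2 := hmain p hp (by
    have : (p1 : ℝ) ≤ p := by linarith
    exact_mod_cast this) n (by omega) (by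
    have : (n : ℝ) ≤ p ^ e := by rw [← hyn]; gcongr
    exact_mod_cast this)
  refine le_trans ?_ h2
  have hp0 : (0 : ℝ) < p := by exact_mod_cast hp.pos
  rw [Real.rpow_add hn', ← hy, Real.rpow_neg hn'.le, Real.rpow_two, le_div_iff₀ (by positivity)]
  calc ((n : ℝ) ^ 2)⁻¹ * y * (2 ^ 20 * p ^ (2 * e))
      ≤ ((n : ℝ) ^ 2)⁻¹ * y * (2 ^ 20 * (4 * y ^ 2) ^ (2 * e)) := by gcongr
    _ = ((n : ℝ) ^ 2)⁻¹ * ((y ^ 2) ^ e) ^ 2 * (y * (2 ^ 20 * 4 ^ (2 * e))) := by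
        rw [mul_pow]; ring
    _ = y * (2 ^ 20 * 4 ^ (2 * e)) := by rw [hyn]; field_simp
    _ ≤ y * y := by gcongr; linarith
    _ ≤ p := by linarith

theorem not_Q1 : ¬ ∀ ε : ℝ, 0 < ε → ∃ (C : ℝ) (n0 : ℕ), ∀ n ≥ n0,
    Delta n ≤ C * (n : ℝ) ^ (-2 + ε) := by
  intro h
  obtain ⟨c, hc, n0, h1⟩ := lower
  obtain ⟨C, n1, h2⟩ := h (c / 2) (by positivity)
  have ht : Tendsto (fun n : ℕ => (n : ℝ) ^ (c / 2)) atTop atTop :=
    (tendsto_rpow_atTop (by positivity)).comp tendsto_natCast_atTop_atTop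
  obtain ⟨n2, hn2⟩ := Filter.eventually_atTop.1 (ht.eventually_gt_atTop C)
  have a1 := h1 (n0 + n1 + n2 + 1) (by omega)
  have a2 := h2 (n0 + n1 + n2 + 1) (by omega)
  have a3 := hn2 (n0 + n1 + n2 + 1) (by omega)
  have hn : (0 : ℝ) < ((n0 + n1 + n2 + 1 : ℕ) : ℝ) := by positivity
  generalize ((n0 + n1 + n2 + 1 : ℕ) : ℝ) = x at *
  have e : x ^ (-2 + c) = x ^ (c / 2) * x ^ (-2 + c / 2) := by
    rw [← Real.rpow_add hn]; congr 1; ring
  have a4 : C * x ^ (-2 + c / 2) < x ^ (c / 2) * x ^ (-2 + c / 2) := by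
    gcongr
  linarith

end Vale.Agent.P036
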