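import Vale.Agent.P036.Count

namespace Vale.Agent.P036

open Finset Matrix

/-- basic conditions on a pair (third row, relation) -/
def PB (Z : ℤ) (z w : V) : Prop :=
  Prim z ∧ Prim w ∧ w ⬝ᵥ z = 0 ∧ ∀ l, Z < z l ∧ z l ≤ 8 * Z

lemma dvd_eq {q a b : ℤ} (h : q ∣ a) (e : b = a) : q ∣ b := e ▸ h

lemma dyadic (P : Finset (V × V)) (K : ℝ) (J : ℕ)
    (hP : ∀ p ∈ P, 0 < nrm p.2 ∧ nrm p.2 < 2 ^ J)
    (hK : ∀ W : ℤ, 0 < W →
      ((P.filter (fun p => W ≤ nrm p.2 ∧ nrm p.2 < 2 * W)).card : ℝ) ≤ K * W ^ 2) :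
    ∑ p ∈ P, 1 / (nrm p.2 : ℝ) ^ 2 ≤ J * K := by
  rw [← Finset.sum_fiberwise_of_maps_to (t := Finset.range J) (g := fun p => Nat.log 2 (nrm p.2))]
  · calc _ ≤ ∑ _j ∈ Finset.range J, K := ?_
      _ = J * K := by simp
    apply Finset.sum_le_sum
    intro j _
    have h1 := hK (2 ^ j) (by positivity)
    calc _ ≤ ∑ _p ∈ P.filter (fun p => Nat.log 2 (nrm p.2) = j), 1 / ((2 : ℝ) ^ j) ^ 2 := ?_
      _ = (P.filter (fun p => Nat.log 2 (nrm p.2) = j)).card * (1 / ((2 : ℝ) ^ j) ^ 2) := by simp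
      _ ≤ (K * ((2 : ℝ) ^ j) ^ 2) * (1 / ((2 : ℝ) ^ j) ^ 2) := ?_
      _ = K := by field_simp
    · apply Finset.sum_le_sum
      intro p hp
      rw [Finset.mem_filter] at hp
      have h2 := Nat.pow_log_le_self 2 (hP p hp.1).1.ne'
      rw [hp.2] at h2
      have h3 : (2 : ℝ) ^ j ≤ nrm p.2 := by exact_mod_cast h2
      gcongr
    · gcongr
      push_cast at h1
      refine le_trans ?_ h1
      norm_cast
      apply Finset.card_le_card
      intro p hp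
      rw [Finset.mem_filter] at hp ⊢
      have h2 := Nat.pow_log_le_self 2 (hP p hp.1).1.ne'
      have h3 := Nat.lt_pow_succ_log_self (b := 2) (by norm_num) (nrm p.2)
      rw [hp.2] at h2 h3
      refine ⟨hp.1, h2, ?_⟩
      rw [pow_succ] at h3
      omega
  · intro p hp
    rw [Finset.mem_range]
    exact Nat.log_lt_of_lt_pow (hP p hp).1.ne' (hP p hp).2

lemma trip (T : Finset (V × V × V)) (Z m : ℤ) (hZ : 0 < Z) (hm : 0 < m)
    (Q : V → V → V → V → Prop) (Pp : V → V → Prop)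
    (hQ : ∀ x x' y z w, Q x y z w → Q x' y z w → w ⬝ᵥ x = w ⬝ᵥ x')
    (hT : ∀ τ ∈ T, (∀ l, 0 ≤ τ.1 l ∧ τ.1 l < 8 * Z) ∧ (∀ l, 0 ≤ τ.2.1 l ∧ τ.2.1 l < 8 * Z) ∧
      (∀ l, m ∣ (τ.1 ⨯₃ τ.2.2) l) ∧ (∀ l, m ∣ (τ.2.1 ⨯₃ τ.2.2) l) ∧
      ∃ w, PB Z τ.2.2 w ∧ Pp τ.2.2 w ∧ m * nrm w ≤ 64 * Z ^ 2 ∧ w ⬝ᵥ τ.2.1 = 0 ∧
        Q τ.1 τ.2.1 τ.2.2 w)
    (K : ℝ) (J : ℕ) (hJ : 64 * Z ^ 2 < 2 ^ J)
    (hK : ∀ (P : Finset (V × V)) (W : ℤ), 0 < W →
      (∀ p ∈ P, PB Z p.1 p.2 ∧ Pp p.1 p.2 ∧ W ≤ nrm p.2 ∧ nrm p.2 < 2 * W) →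
      (P.card : ℝ) ≤ K * W ^ 2) :
    (T.card : ℝ) ≤ J * K * (2000 * Z ^ 2 / m) ^ 2 := by
  classical
  have hZ' : (0 : ℝ) < Z := by exact_mod_cast hZ
  have hm' : (0 : ℝ) < m := by exact_mod_cast hm
  have hex : ∀ τ : V × V × V, ∃ w : V, τ ∈ T → PB Z τ.2.2 w ∧ Pp τ.2.2 w ∧
      m * nrm w ≤ 64 * Z ^ 2 ∧ w ⬝ᵥ τ.2.1 = 0 ∧ Q τ.1 τ.2.1 τ.2.2 w := by
    intro τ
    by_cases h : τ ∈ T
    · obtain ⟨w, hw⟩ := (hT τ h).2.2.2.2
      exact ⟨w, fun _ => hw⟩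
    · exact ⟨0, fun h' => absurd h' h⟩
  choose ω hω using hex
  set P := T.image (fun τ => (τ.2.2, ω τ)) with hP
  have hPmem : ∀ p ∈ P, PB Z p.1 p.2 ∧ Pp p.1 p.2 ∧ m * nrm p.2 ≤ 64 * Z ^ 2 := by
    intro p hp
    obtain ⟨τ, hτ, rfl⟩ := Finset.mem_image.1 hp
    exact ⟨(hω τ hτ).1, (hω τ hτ).2.1, (hω τ hτ).2.2.1⟩
  have hdy := dyadic P K J (fun p hp => ⟨(hPmem p hp).1.2.1.nrm_pos, by
    have h1 := (hPmem p hp).2.2
    have h2 : (nrm p.2 : ℤ) ≤ m * nrm p.2 := le_mul_of_one_le_left (by positivity) hm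
    have h3 : (nrm p.2 : ℤ) < 2 ^ J := by linarith
    exact_mod_cast h3⟩) (fun W hW => hK _ W hW (fun p hp => by
      rw [Finset.mem_filter] at hp
      exact ⟨(hPmem p hp.1).1, (hPmem p hp.1).2.1, hp.2⟩))
  rw [Finset.card_eq_sum_card_fiberwise (f := fun τ => (τ.2.2, ω τ)) (t := P)
    (fun τ hτ => Finset.mem_image_of_mem _ hτ)]
  push_cast
  calc _ ≤ ∑ p ∈ P, 1 / (nrm p.2 : ℝ) ^ 2 * (2000 * (Z : ℝ) ^ 2 / m) ^ 2 := ?_
    _ = (∑ p ∈ P, 1 / (nrm p.2 : ℝ) ^ 2) * (2000 * (Z : ℝ) ^ 2 / m) ^ 2 := by rw [Finset.sum_mul]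
    _ ≤ J * K * (2000 * (Z : ℝ) ^ 2 / m) ^ 2 := by gcongr
  apply Finset.sum_le_sum
  rintro ⟨z, w⟩ hp
  obtain ⟨⟨pz, pw, hwz, hzZ⟩, -, hmw⟩ := hPmem _ hp
  simp only at pz pw hwz hzZ hmw ⊢
  have hWp' : (0 : ℝ) < nrm w := by exact_mod_cast pw.nrm_pos
  have e : 1 / (nrm w : ℝ) ^ 2 * (2000 * Z ^ 2 / m) ^ 2
      = (2000 * Z ^ 2 / (m * nrm w)) * (2000 * Z ^ 2 / (m * nrm w)) := by field_simp
  rw [e]
  apply card_le_fibers' _ (fun τ => τ.2.1) _ _ (by positivity)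
  · apply L3 _ z w pz pw hwz Z m hZ hm hzZ hmw
    · intro r hr
      obtain ⟨τ, hτ, rfl⟩ := Finset.mem_image.1 hr
      exact (hT τ (Finset.mem_filter.1 hτ).1).2.1
    · have : ∀ r ∈ (T.filter (fun τ => (τ.2.2, ω τ) = (z, w))).image (fun τ => τ.2.1),
          w ⬝ᵥ r = 0 := by
        intro r hr
        obtain ⟨τ, hτ, rfl⟩ := Finset.mem_image.1 hr
        rw [Finset.mem_filter, Prod.mk.injEq] at hτ
        rw [← hτ.2.2]
        exact (hω τ hτ.1).2.2.2.1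
      intro r hr r' hr'
      rw [this r hr, this r' hr']
    · intro r hr
      obtain ⟨τ, hτ, rfl⟩ := Finset.mem_image.1 hr
      rw [Finset.mem_filter, Prod.mk.injEq] at hτ
      rw [← hτ.2.1]
      exact (hT τ hτ.1).2.2.2.1
  · intro τ0 hτ0
    rw [← Finset.card_image_of_injOn (f := fun τ : V × V × V => τ.1)]
    · apply L3 _ z w pz pw hwz Z m hZ hm hzZ hmw
      · intro r hr
        obtain ⟨τ, hτ, rfl⟩ := Finset.mem_image.1 hr
        exact (hT τ (Finset.mem_filter.1 (Finset.mem_filter.1 hτ).1).1).1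
      · have : ∀ r ∈ ((T.filter (fun τ => (τ.2.2, ω τ) = (z, w))).filter
            (fun τ => τ.2.1 = τ0.2.1)).image (fun τ => τ.1), Q r τ0.2.1 z w := by
          intro r hr
          obtain ⟨τ, hτ, rfl⟩ := Finset.mem_image.1 hr
          simp only [Finset.mem_filter, Prod.mk.injEq] at hτ
          rw [← hτ.2, ← hτ.1.2.1, ← hτ.1.2.2]
          exact (hω τ hτ.1.1).2.2.2.2
        intro r hr r' hr'
        exact hQ _ _ _ _ _ (this r hr) (this r' hr')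
      · intro r hr
        obtain ⟨τ, hτ, rfl⟩ := Finset.mem_image.1 hr
        simp only [Finset.mem_filter, Prod.mk.injEq] at hτ
        rw [← hτ.1.2.1]
        exact (hT τ hτ.1.1).2.2.1
    · intro τ hτ τ' hτ' h
      simp only [Finset.coe_filter, Finset.mem_filter, Set.mem_ofPred_eq, Prod.mk.injEq] at hτ hτ'
      exact Prod.ext h (Prod.ext (hτ.2.trans hτ'.2.symm) (hτ.1.2.1.trans hτ'.1.2.1.symm))

lemma pair_small (P : Finset (V × V)) (A B : ℝ) (hB : 0 ≤ B)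
    (h1 : ((P.image Prod.snd).card : ℝ) ≤ A)
    (h2 : ∀ (w : V) (s : Finset V), (∀ z ∈ s, (z, w) ∈ P) → s.Nonempty → (s.card : ℝ) ≤ B) :
    (P.card : ℝ) ≤ A * B := by
  apply card_le_fibers' P Prod.snd B A hB h1
  intro p hp
  rw [← Finset.card_image_of_injOn (f := Prod.fst)]
  · apply h2 p.2
    · intro z hz
      obtain ⟨p', hp', rfl⟩ := Finset.mem_image.1 hz
      rw [Finset.mem_filter] at hp'
      rw [← hp'.2]
      exact hp'.1
    · exact ⟨p.1, Finset.mem_image.2 ⟨p, Finset.mem_filter.2 ⟨hp, rfl⟩, rfl⟩⟩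
  · intro a ha b hb h
    simp only [Finset.coe_filter, Set.mem_ofPred_eq] at ha hb
    exact Prod.ext h (ha.2.trans hb.2.symm)

lemma pair_large (P : Finset (V × V)) (A B : ℝ) (hB : 0 ≤ B)
    (h1 : ((P.image Prod.fst).card : ℝ) ≤ A)
    (h2 : ∀ (z : V) (s : Finset V), (∀ w ∈ s, (z, w) ∈ P) → s.Nonempty → (s.card : ℝ) ≤ B) :
    (P.card : ℝ) ≤ A * B := by
  apply card_le_fibers' P Prod.fst B A hB h1
  intro p hp
  rw [← Finset.card_image_of_injOn (f := Prod.snd)]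
  · apply h2 p.1
    · intro z hz
      obtain ⟨p', hp', rfl⟩ := Finset.mem_image.1 hz
      rw [Finset.mem_filter] at hp'
      rw [← hp'.2]
      exact hp'.1
    · exact ⟨p.2, Finset.mem_image.2 ⟨p, Finset.mem_filter.2 ⟨hp, rfl⟩, rfl⟩⟩
  · intro a ha b hb h
    simp only [Finset.coe_filter, Set.mem_ofPred_eq] at ha hb
    exact Prod.ext (ha.2.trans hb.2.symm) h

lemma w_cube {w : V} {W : ℤ} (h : nrm w < 2 * W) (l : Fin 3) :
    -(2 * W) ≤ w l ∧ w l < -(2 * W) + 4 * W := by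
  have := abs_le.1 (abs_le_nrm w l)
  constructor <;> linarith

lemma z_cube {z w : V} {Z : ℤ} (hZ : 0 < Z) (h : PB Z z w) (l : Fin 3) :
    Z ≤ z l ∧ z l < Z + 8 * Z := by
  have := h.2.2.2 l
  constructor <;> linarith

lemma fibz (Z W m : ℤ) (hZ : 0 < Z) (hW : 0 < W) (hm : 0 < m) (hmW : m * W ≤ 4 * Z) (w : V)
    (s : Finset V) (hs : ∀ z ∈ s, PB Z z w) (hne : s.Nonempty) (h1 : W ≤ nrm w)
    (h2 : nrm w < 2 * W) (hmod : ∀ r ∈ s, ∀ r' ∈ s, ∀ l, m ∣ r l - r' l) :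
    (s.card : ℝ) ≤ 512 * Z ^ 2 / (m ^ 2 * W) := by
  obtain ⟨z0, hz0⟩ := hne
  have h := L1 s w (hs z0 hz0).2.1 Z (8 * Z) m hm (by nlinarith)
    (fun z hz l => z_cube hZ (hs z hz) l)
    (fun z hz z' hz' => by rw [(hs z hz).2.2.1, (hs z' hz').2.2.1]) hmod
  have hW' : (0 : ℝ) < W := by exact_mod_cast hW
  have hm' : (0 : ℝ) < m := by exact_mod_cast hm
  have h1' : (W : ℝ) ≤ nrm w := by exact_mod_cast h1
  push_cast at h
  calc _ ≤ _ := h
    _ ≤ 8 * (8 * Z) ^ 2 / (m ^ 2 * W) := by gcongr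
    _ = _ := by ring

lemma fibw (Z W m : ℤ) (hZ : 0 < Z) (hW : 0 < W) (hm : 0 < m) (hmW : m * Z ≤ W ^ 2) (z : V)
    (s : Finset V) (hs : ∀ w ∈ s, PB Z z w ∧ W ≤ nrm w ∧ nrm w < 2 * W) (hne : s.Nonempty)
    (hmod : ∀ w ∈ s, ∀ w' ∈ s, ∀ l, m ∣ (w ⨯₃ w') l) :
    (s.card : ℝ) ≤ 54 * W ^ 2 / (m * Z) := by
  obtain ⟨w0, hw0⟩ := hne
  have h := L2 s z (hs w0 hw0).1.1 Z W m hZ hW hm (fun l => ((hs w0 hw0).1.2.2.2 l).1)
    (fun w hw => ⟨(hs w hw).1.2.1, (hs w hw).1.2.2.1, (hs w hw).2⟩) hmod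
  have hZ' : (0 : ℝ) < Z := by exact_mod_cast hZ
  have hm' : (0 : ℝ) < m := by exact_mod_cast hm
  have h1 : (m : ℝ) * Z ≤ W ^ 2 := by exact_mod_cast hmW
  have h2 : (1 : ℝ) ≤ W ^ 2 / (m * Z) := by rw [le_div_iff₀ (by positivity)]; linarith
  calc _ ≤ _ := h
    _ = 48 * (W ^ 2 / (m * Z)) + 6 := by ring
    _ ≤ 54 * (W ^ 2 / (m * Z)) := by linarith
    _ = _ := by ring

lemma aux1 {T M c : ℝ} (hM : 0 < M) (h : M ≤ c) : T / M + 1 ≤ (T + c) / M := by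
  rw [add_div]
  have : 1 ≤ c / M := by rw [le_div_iff₀ hM]; linarith
  linarith

lemma pair1 (Z : ℤ) (hZ : 0 < Z) (P : Finset (V × V)) (W : ℤ) (hW : 0 < W)
    (hP : ∀ p ∈ P, PB Z p.1 p.2 ∧ True ∧ W ≤ nrm p.2 ∧ nrm p.2 < 2 * W) :
    (P.card : ℝ) ≤ 64000 * Z ^ 2 * W ^ 2 := by
  have hZ' : (0 : ℝ) < Z := by exact_mod_cast hZ
  have hW' : (0 : ℝ) < W := by exact_mod_cast hW
  have hZ1 : (1 : ℝ) ≤ Z := by exact_mod_cast hZ
  have hW1 : (1 : ℝ) ≤ W := by exact_mod_cast hW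
  by_cases hc : W ≤ 4 * Z
  · have := pair_small P ((5 * W) * ((5 * W) * (5 * W))) (512 * Z ^ 2 / (1 ^ 2 * W))
      (by positivity) ?_ ?_
    · calc _ ≤ _ := this
        _ = _ := by field_simp; ring
    · have h := G3 (P.image Prod.snd) (-(2 * W)) (4 * W) 1 1 1 (by omega) one_pos one_pos one_pos
        0 (0 + 1) (0 + 2) (ext012 0) (fun w hw l => by
          obtain ⟨p, hp, rfl⟩ := Finset.mem_image.1 hw
          exact w_cube (hP p hp).2.2.2 l) (by simp) (by simp) (by simp)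
      push_cast at h
      have a : (4 * W : ℝ) / 1 + 1 ≤ 5 * W := by linarith
      calc _ ≤ _ := h
        _ ≤ _ := by gcongr
    · intro w s hs hne
      obtain ⟨z0, hz0⟩ := hne
      have := fibz Z W 1 hZ hW one_pos (by omega) w s (fun z hz => (hP _ (hs z hz)).1) ⟨z0, hz0⟩
        (hP _ (hs z0 hz0)).2.2.1 (hP _ (hs z0 hz0)).2.2.2 (by simp)
      simpa using this
  · have := pair_large P ((9 * Z) * ((9 * Z) * (9 * Z))) (54 * W ^ 2 / (1 * Z))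
      (by positivity) ?_ ?_
    · calc _ ≤ _ := this
        _ = 39366 * Z ^ 2 * W ^ 2 := by field_simp; ring
        _ ≤ _ := by gcongr; norm_num
    · have h := G3 (P.image Prod.fst) Z (8 * Z) 1 1 1 (by omega) one_pos one_pos one_pos
        0 (0 + 1) (0 + 2) (ext012 0) (fun w hw l => by
          obtain ⟨p, hp, rfl⟩ := Finset.mem_image.1 hw
          exact z_cube hZ (hP p hp).1 l) (by simp) (by simp) (by simp)
      push_cast at h
      have a : (8 * Z : ℝ) / 1 + 1 ≤ 9 * Z := by linarith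
      calc _ ≤ _ := h
        _ ≤ _ := by gcongr
    · intro z s hs hne
      have := fibw Z W 1 hZ hW one_pos (by nlinarith) z s
        (fun w hw => ⟨(hP _ (hs w hw)).1, (hP _ (hs w hw)).2.2⟩) hne (by simp)
      simpa using this

lemma cross_comp {q : ℤ} {w u : V} (h : ∀ l, q ∣ (w ⨯₃ u) l) (i j : Fin 3) :
    q ∣ w j * u i - w i * u j := by
  have h0 := h 0
  have h1 := h 1
  have h2 := h 2
  simp only [cross_apply] at h0 h1 h2
  simp at h0 h1 h2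
  fin_cases i <;> fin_cases j <;> simp <;>
    first
    | exact h0 | exact h1 | exact h2
    | exact dvd_sub_comm.1 h0 | exact dvd_sub_comm.1 h1 | exact dvd_sub_comm.1 h2

lemma pair2 (Z : ℤ) (q : ℕ) (hq : q.Prime) (hZq : (q : ℤ) ≤ Z) (u : V) (i : Fin 3)
    (hu : ¬ (q : ℤ) ∣ u i) (P : Finset (V × V)) (W : ℤ) (hW : 0 < W)
    (hP : ∀ p ∈ P, PB Z p.1 p.2 ∧ ((∀ l, (q : ℤ) ∣ (p.2 ⨯₃ u) l) ∧ (q : ℤ) ≤ 3 * nrm p.2) ∧
      W ≤ nrm p.2 ∧ nrm p.2 < 2 * W) :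
    (P.card : ℝ) ≤ 256000 * Z ^ 2 / q ^ 2 * W ^ 2 := by
  have hq0 : (0 : ℤ) < q := by exact_mod_cast hq.pos
  have hZ : 0 < Z := by omega
  have hZ' : (0 : ℝ) < Z := by exact_mod_cast hZ
  have hW' : (0 : ℝ) < W := by exact_mod_cast hW
  have hq' : (0 : ℝ) < q := by exact_mod_cast hq.pos
  have hZ1 : (1 : ℝ) ≤ Z := by exact_mod_cast hZ
  have hW1 : (1 : ℝ) ≤ W := by exact_mod_cast hW
  have hZq' : (q : ℝ) ≤ Z := by exact_mod_cast hZq
  have hqP : Prime (q : ℤ) := Nat.prime_iff_prime_int.1 hq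
  rcases P.eq_empty_or_nonempty with rfl | ⟨p0, hp0⟩
  · simp; positivity
  have hqW : (q : ℝ) ≤ 6 * W := by
    have h1 := (hP p0 hp0).2.1.2
    have h2 := (hP p0 hp0).2.2.2
    have : (q : ℤ) ≤ 6 * W := by omega
    exact_mod_cast this
  by_cases hc : W ≤ 4 * Z
  · have := pair_small P ((5 * W) * ((10 * W / q) * (10 * W / q))) (512 * Z ^ 2 / (1 ^ 2 * W))
      (by positivity) ?_ ?_
    · calc _ ≤ _ := this
        _ = _ := by field_simp; ring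
    · have hd : ∀ r ∈ P.image Prod.snd, ∀ r' ∈ P.image Prod.snd, r i = r' i → ∀ j,
          (q : ℤ) ∣ r j - r' j := by
        intro r hr r' hr' hi j
        obtain ⟨p, hp, rfl⟩ := Finset.mem_image.1 hr
        obtain ⟨p', hp', rfl⟩ := Finset.mem_image.1 hr'
        have h1 := cross_comp (hP p hp).2.1.1 i j
        have h2 := cross_comp (hP p' hp').2.1.1 i j
        have h3 : (q : ℤ) ∣ (p.2 j - p'.2 j) * u i := by
          have := dvd_sub h1 h2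
          rw [hi] at this
          exact dvd_eq this (by ring)
        exact (hqP.dvd_or_dvd h3).resolve_right hu
      have h := G3 (P.image Prod.snd) (-(2 * W)) (4 * W) 1 q q (by omega) one_pos hq0 hq0
        i (i + 1) (i + 2) (ext012 i) (fun w hw l => by
          obtain ⟨p, hp, rfl⟩ := Finset.mem_image.1 hw
          exact w_cube (hP p hp).2.2.2 l) (by simp) (fun r hr r' hr' h => hd r hr r' hr' h _)
          (fun r hr r' hr' h _ => hd r hr r' hr' h _)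
      push_cast at h
      have a : (4 * W : ℝ) / 1 + 1 ≤ 5 * W := by linarith
      have b : (4 * W : ℝ) / q + 1 ≤ 10 * W / q := (aux1 hq' hqW).trans (le_of_eq (by ring))
      calc _ ≤ _ := h
        _ ≤ _ := by gcongr
    · intro w s hs hne
      obtain ⟨z0, hz0⟩ := hne
      have := fibz Z W 1 hZ hW one_pos (by omega) w s (fun z hz => (hP _ (hs z hz)).1) ⟨z0, hz0⟩
        (hP _ (hs z0 hz0)).2.2.1 (hP _ (hs z0 hz0)).2.2.2 (by simp)
      simpa using this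
  · have := pair_large P ((9 * Z) * ((9 * Z) * (9 * Z / q))) (54 * W ^ 2 / (q * Z))
      (by positivity) ?_ ?_
    · calc _ ≤ _ := this
        _ = 39366 * Z ^ 2 / q ^ 2 * W ^ 2 := by field_simp; ring
        _ ≤ _ := by gcongr; norm_num
    · have hz : ∀ z ∈ P.image Prod.fst, (q : ℤ) ∣ u ⬝ᵥ z := by
        intro z hz
        obtain ⟨p, hp, rfl⟩ := Finset.mem_image.1 hz
        obtain ⟨⟨-, pw, hwz, -⟩, ⟨hc, -⟩, -⟩ := hP p hp
        apply pw.dvd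
        intro l
        have h0 := cross_comp hc 0 l
        have h1 := cross_comp hc 1 l
        have h2 := cross_comp hc 2 l
        have := dvd_add (dvd_add (h0.mul_left (p.1 0)) (h1.mul_left (p.1 1))) (h2.mul_left (p.1 2))
        simp only [dotProduct, Fin.sum_univ_three] at hwz ⊢
        exact dvd_eq this (by linear_combination u l * hwz)
      have h := G3 (P.image Prod.fst) Z (8 * Z) 1 1 q (by omega) one_pos one_pos hq0
        (i + 2) (i + 1) i (fun r r' a b c => ext012 i r r' c b a) (fun w hw l => by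
          obtain ⟨p, hp, rfl⟩ := Finset.mem_image.1 hw
          exact z_cube hZ (hP p hp).1 l) (by simp) (by simp) (by
            intro r hr r' hr' h2 h1
            have := dvd_sub (hz r hr) (hz r' hr')
            rw [dot_rot i, dot_rot i u r', h1, h2] at this
            have h3 : (q : ℤ) ∣ (r i - r' i) * u i := by exact dvd_eq this (by ring)
            exact (hqP.dvd_or_dvd h3).resolve_right hu)
      push_cast at h
      have a : (8 * Z : ℝ) / 1 + 1 ≤ 9 * Z := by linarith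
      have b : (8 * Z : ℝ) / q + 1 ≤ 9 * Z / q := (aux1 hq' hZq').trans (le_of_eq (by ring))
      calc _ ≤ _ := h
        _ ≤ _ := by gcongr
    · intro z s hs hne
      have := fibw Z W q hZ hW hq0 (by nlinarith) z s
        (fun w hw => ⟨(hP _ (hs w hw)).1, (hP _ (hs w hw)).2.2⟩) hne (by
          intro w hw w' hw' l
          have hc := (hP _ (hs w hw)).2.1.1
          have hc' := (hP _ (hs w' hw')).2.1.1
          have key : ∀ a b, (q : ℤ) ∣ w a * w' b - w b * w' a := by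
            intro a b
            have h1 := cross_comp hc i a
            have h2 := cross_comp hc i b
            have h3 := cross_comp hc' i a
            have h4 := cross_comp hc' i b
            simp only at h1 h2 h3 h4
            have h5 : (q : ℤ) ∣ (w a * w' b - w b * w' a) * u i := by
              have e1 := dvd_sub (h1.mul_left (w' b * u i)) (h2.mul_left (w' a * u i))
              have e2 := dvd_sub (h4.mul_left (w i * u a)) (h3.mul_left (w i * u b))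
              have e3 : (q : ℤ) ∣ ((w a * w' b - w b * w' a) * u i) * u i := by
                have := dvd_add e1 e2
                exact dvd_eq this (by ring)
              exact (hqP.dvd_or_dvd e3).resolve_right hu
            exact (hqP.dvd_or_dvd h5).resolve_right hu
          have e : l = (l + 1) + 2 := by fin_cases l <;> rfl
          rw [e, cross_rot]
          exact key _ _)
      simpa using this

lemma pair3 (Z : ℤ) (q : ℤ) (hq0 : 0 < q) (hZq : q ^ 2 ≤ Z)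
    (P : Finset (V × V)) (W : ℤ) (hW : 0 < W)
    (hP : ∀ p ∈ P, PB Z p.1 p.2 ∧ ((∀ l l', q ∣ p.1 l - p.1 l') ∧ q ∣ p.2 0 + p.2 1 + p.2 2 ∧
      q ≤ 3 * nrm p.2) ∧ W ≤ nrm p.2 ∧ nrm p.2 < 2 * W) :
    (P.card : ℝ) ≤ 128000 * Z ^ 2 / q ^ 2 * W ^ 2 := by
  have hZq1 : q ≤ Z := by nlinarith
  have hZ : 0 < Z := by omega
  have hZ' : (0 : ℝ) < Z := by exact_mod_cast hZ
  have hW' : (0 : ℝ) < W := by exact_mod_cast hW
  have hq' : (0 : ℝ) < q := by exact_mod_cast hq0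
  have hZ1 : (1 : ℝ) ≤ Z := by exact_mod_cast hZ
  have hW1 : (1 : ℝ) ≤ W := by exact_mod_cast hW
  have hZq' : (q : ℝ) ≤ Z := by exact_mod_cast hZq1
  rcases P.eq_empty_or_nonempty with rfl | ⟨p0, hp0⟩
  · simp; positivity
  have hqW : (q : ℝ) ≤ 6 * W := by
    have h1 := (hP p0 hp0).2.1.2.2
    have h2 := (hP p0 hp0).2.2.2
    have : (q : ℤ) ≤ 6 * W := by omega
    exact_mod_cast this
  by_cases hc : q * W ≤ 4 * Z
  · have := pair_small P ((5 * W) * ((5 * W) * (10 * W / q))) (q * (512 * Z ^ 2 / (q ^ 2 * W)))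
      (by positivity) ?_ ?_
    · calc _ ≤ _ := this
        _ = _ := by field_simp; ring
    · have h := G3 (P.image Prod.snd) (-(2 * W)) (4 * W) 1 1 q (by omega) one_pos one_pos hq0
        0 1 2 (ext012 0) (fun w hw l => by
          obtain ⟨p, hp, rfl⟩ := Finset.mem_image.1 hw
          exact w_cube (hP p hp).2.2.2 l) (by simp) (by simp) (by
            intro r hr r' hr' h0 h1
            obtain ⟨p, hp, rfl⟩ := Finset.mem_image.1 hr
            obtain ⟨p', hp', rfl⟩ := Finset.mem_image.1 hr'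
            have := dvd_sub (hP p hp).2.1.2.1 (hP p' hp').2.1.2.1
            rw [h0, h1] at this
            exact dvd_eq this (by ring))
      push_cast at h
      have a : (4 * W : ℝ) / 1 + 1 ≤ 5 * W := by linarith
      have b : (4 * W : ℝ) / q + 1 ≤ 10 * W / q := (aux1 hq' hqW).trans (le_of_eq (by ring))
      calc _ ≤ _ := h
        _ ≤ _ := by gcongr
    · intro w s hs hne
      obtain ⟨z0, hz0⟩ := hne
      have := card_le_fibers s (Finset.Ico 0 q) (fun z => z 0 % q) (fun z _ => by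
        rw [Finset.mem_Ico]
        exact ⟨Int.emod_nonneg _ hq0.ne', Int.emod_lt_of_pos _ hq0⟩)
        (512 * Z ^ 2 / (q ^ 2 * W)) (by
          intro b _
          rcases (s.filter (fun z => z 0 % q = b)).eq_empty_or_nonempty with h | h
          · rw [h]; simp; positivity
          apply fibz Z W q hZ hW hq0 hc w _
            (fun z hz => (hP _ (hs z (Finset.mem_filter.1 hz).1)).1) h
            (hP _ (hs z0 hz0)).2.2.1 (hP _ (hs z0 hz0)).2.2.2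
          intro r hr r' hr' l
          rw [Finset.mem_filter] at hr hr'
          have h1 := (hP _ (hs r hr.1)).2.1.1 l 0
          have h2 := (hP _ (hs r' hr'.1)).2.1.1 l 0
          have h3 : q ∣ r 0 - r' 0 := Int.ModEq.dvd (hr'.2.trans hr.2.symm)
          have := dvd_add (dvd_sub h1 h2) h3
          exact dvd_eq this (by ring))
      rw [Int.card_Ico] at this
      have e : (((q - 0).toNat : ℕ) : ℝ) = q := by
        have : (((q - 0).toNat : ℕ) : ℤ) = q := by omega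
        exact_mod_cast this
      rwa [e] at this
  · have := pair_large P ((9 * Z) * ((9 * Z / q) * (9 * Z / q))) (54 * W ^ 2 / (1 * Z))
      (by positivity) ?_ ?_
    · calc _ ≤ _ := this
        _ = 39366 * Z ^ 2 / q ^ 2 * W ^ 2 := by field_simp; ring
        _ ≤ _ := by gcongr; norm_num
    · have hd : ∀ r ∈ P.image Prod.fst, ∀ r' ∈ P.image Prod.fst, r 0 = r' 0 → ∀ j,
          q ∣ r j - r' j := by
        intro r hr r' hr' hi j
        obtain ⟨p, hp, rfl⟩ := Finset.mem_image.1 hr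
        obtain ⟨p', hp', rfl⟩ := Finset.mem_image.1 hr'
        have := dvd_sub ((hP p hp).2.1.1 j 0) ((hP p' hp').2.1.1 j 0)
        rw [hi] at this
        exact dvd_eq this (by ring)
      have h := G3 (P.image Prod.fst) Z (8 * Z) 1 q q (by omega) one_pos hq0 hq0
        0 1 2 (ext012 0) (fun w hw l => by
          obtain ⟨p, hp, rfl⟩ := Finset.mem_image.1 hw
          exact z_cube hZ (hP p hp).1 l) (by simp) (fun r hr r' hr' h => hd r hr r' hr' h _)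
          (fun r hr r' hr' h _ => hd r hr r' hr' h _)
      push_cast at h
      have a : (8 * Z : ℝ) / 1 + 1 ≤ 9 * Z := by linarith
      have b : (8 * Z : ℝ) / q + 1 ≤ 9 * Z / q := (aux1 hq' hZq').trans (le_of_eq (by ring))
      calc _ ≤ _ := h
        _ ≤ _ := by gcongr
    · intro z s hs hne
      have hWZ : 1 * Z ≤ W ^ 2 := by
        by_contra hcon
        have h1 : W ^ 2 < Z := by linarith
        have h2 : (4 * Z) ^ 2 < (q * W) ^ 2 := pow_lt_pow_left₀ (not_le.1 hc) (by positivity) two_ne_zero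
        have h3 : q ^ 2 * W ^ 2 ≤ Z * W ^ 2 := by gcongr
        nlinarith
      have := fibw Z W 1 hZ hW one_pos hWZ z s
        (fun w hw => ⟨(hP _ (hs w hw)).1, (hP _ (hs w hw)).2.2⟩) hne (by simp)
      simpa using this

/-- coordinates in the box -/
def InB (Z : ℤ) (x : V) : Prop := ∀ l, 0 ≤ x l ∧ x l < 8 * Z

/-- coordinates in the range of the last coordinate -/
def InZ (Z : ℤ) (z : V) : Prop := ∀ l, Z < z l ∧ z l ≤ 8 * Z

lemma nrm_le_of_smul {x z w : V} {Z d m : ℤ} (hZ : 0 < Z) (hx : InB Z x) (hz : InZ Z z)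
    (hw : Prim w) (hd : d ≠ 0) (h : x ⨯₃ z = d • w) (hm : ∀ l, m ∣ (x ⨯₃ z) l) :
    m * nrm w ≤ 64 * Z ^ 2 := by
  obtain ⟨i, hi⟩ := exists_nrm w
  have h1 := cross_bound (u := x) (v := z) (N := 8 * Z) (fun l => ⟨(hx l).1, (hx l).2.le⟩)
    (fun l => ⟨(hZ.trans (hz l).1).le, (hz l).2⟩) i
  have h2 : m ∣ d := hw.dvd (fun l => by have := hm l; rwa [h] at this)
  have h3 : m ≤ |d| := Int.le_of_dvd (abs_pos.2 hd) ((dvd_abs _ _).2 h2)
  rw [h, Pi.smul_apply, smul_eq_mul, abs_mul, hi] at h1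
  have h4 : m * nrm w ≤ |d| * nrm w := by gcongr
  linarith

lemma countA1 (T : Finset (V × V × V)) (Z : ℤ) (hZ : 0 < Z) (J : ℕ) (hJ : 64 * Z ^ 2 < 2 ^ J)
    (t : ℤ) (ht : t ≠ 0)
    (hT : ∀ τ ∈ T, InB Z τ.1 ∧ InB Z τ.2.1 ∧ InZ Z τ.2.2 ∧ Prim τ.2.2 ∧
      τ.1 ⬝ᵥ (τ.2.1 ⨯₃ τ.2.2) = t) :
    (T.card : ℝ) ≤ J * (64000 * Z ^ 2) * (2000 * Z ^ 2) ^ 2 := by
  have := trip T Z 1 hZ one_pos
    (fun x y z w => x ⬝ᵥ (y ⨯₃ z) = t ∧ ∃ d : ℤ, d ≠ 0 ∧ y ⨯₃ z = d • w) (fun _ _ => True)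
    ?_ ?_ (64000 * Z ^ 2) J hJ (fun P W hW hP => pair1 Z hZ P W hW hP)
  · simpa using this
  · rintro x x' y z w ⟨h1, d, hd, h2⟩ ⟨h3, -⟩
    rw [h2, dotProduct_smul, smul_eq_mul] at h1 h3
    rw [dotProduct_comm w, dotProduct_comm w]
    exact mul_left_cancel₀ hd (h1.trans h3.symm)
  · rintro ⟨x, y, z⟩ hτ
    obtain ⟨hx, hy, hz, pz, hdet⟩ := hT _ hτ
    simp only at hx hy hz pz hdet ⊢
    refine ⟨hx, hy, by simp, by simp, ?_⟩
    have hne : y ⨯₃ z ≠ 0 := by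
      intro h; rw [h] at hdet; simp at hdet; exact ht hdet.symm
    obtain ⟨d, w, hd, pw, hw⟩ := exists_prim _ hne
    have h1 : w ⬝ᵥ z = 0 := by
      have := dot_cross_self y z
      rw [hw, dotProduct_smul, smul_eq_mul, dotProduct_comm] at this
      exact (mul_eq_zero.1 this).resolve_left hd
    have h2 : w ⬝ᵥ y = 0 := by
      have := dot_self_cross y z
      rw [hw, dotProduct_smul, smul_eq_mul, dotProduct_comm] at this
      exact (mul_eq_zero.1 this).resolve_left hd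
    exact ⟨w, ⟨pz, pw, h1, hz⟩, trivial, nrm_le_of_smul hZ hy hz pw hd hw (by simp), h2, hdet,
      d, hd, hw⟩

lemma countA2 (T : Finset (V × V × V)) (Z : ℤ) (q : ℕ) (hq : q.Prime) (hZq : (q : ℤ) ≤ Z)
    (J : ℕ) (hJ : 64 * Z ^ 2 < 2 ^ J) (u : V) (i : Fin 3) (hu : ¬ (q : ℤ) ∣ u i)
    (hT : ∀ τ ∈ T, InB Z τ.1 ∧ InB Z τ.2.1 ∧ InZ Z τ.2.2 ∧ Prim τ.2.2 ∧
      ∃ w, Prim w ∧ w ⬝ᵥ τ.1 = 0 ∧ w ⬝ᵥ τ.2.1 = 0 ∧ w ⬝ᵥ τ.2.2 = 0 ∧ nrm w ≤ 64 * Z ^ 2 ∧
        (∀ l, (q : ℤ) ∣ (w ⨯₃ u) l) ∧ (q : ℤ) ≤ 3 * nrm w) :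
    (T.card : ℝ) ≤ J * (256000 * Z ^ 2 / q ^ 2) * (2000 * Z ^ 2) ^ 2 := by
  have hq0 : (0 : ℤ) < q := by exact_mod_cast hq.pos
  have := trip T Z 1 (by omega) one_pos (fun x _ _ w => w ⬝ᵥ x = 0)
    (fun _ w => (∀ l, (q : ℤ) ∣ (w ⨯₃ u) l) ∧ (q : ℤ) ≤ 3 * nrm w)
    ?_ ?_ (256000 * Z ^ 2 / q ^ 2) J hJ (fun P W hW hP => pair2 Z q hq hZq u i hu P W hW hP)
  · simpa using this
  · intro x x' y z w h1 h2
    rw [h1, h2]
  · rintro ⟨x, y, z⟩ hτ
    obtain ⟨hx, hy, hz, pz, w, pw, h1, h2, h3, h4, h5, h6⟩ := hT _ hτ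
    exact ⟨hx, hy, by simp, by simp, w, ⟨pz, pw, h3, hz⟩, ⟨h5, h6⟩, by simpa using h4, h2, h1⟩

lemma countA3 (T : Finset (V × V × V)) (Z q : ℤ) (hq0 : 0 < q) (hZq : q ^ 2 ≤ Z)
    (J : ℕ) (hJ : 64 * Z ^ 2 < 2 ^ J)
    (hT : ∀ τ ∈ T, InB Z τ.1 ∧ InB Z τ.2.1 ∧ InZ Z τ.2.2 ∧ Prim τ.2.2 ∧
      (∀ l, q ∣ (τ.1 ⨯₃ τ.2.2) l) ∧ (∀ l, q ∣ (τ.2.1 ⨯₃ τ.2.2) l) ∧
      (∀ l l', q ∣ τ.2.2 l - τ.2.2 l') ∧
      ∃ w, Prim w ∧ w ⬝ᵥ τ.1 = 0 ∧ w ⬝ᵥ τ.2.1 = 0 ∧ w ⬝ᵥ τ.2.2 = 0 ∧ q * nrm w ≤ 64 * Z ^ 2 ∧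
        q ∣ w 0 + w 1 + w 2 ∧ q ≤ 3 * nrm w) :
    (T.card : ℝ) ≤ J * (128000 * Z ^ 2 / q ^ 2) * (2000 * Z ^ 2 / q) ^ 2 := by
  have hZ : 0 < Z := by nlinarith
  apply trip T Z q hZ hq0 (fun x _ _ w => w ⬝ᵥ x = 0)
    (fun z w => (∀ l l', q ∣ z l - z l') ∧ q ∣ w 0 + w 1 + w 2 ∧ q ≤ 3 * nrm w)
    ?_ ?_ (128000 * Z ^ 2 / q ^ 2) J hJ (fun P W hW hP => pair3 Z q hq0 hZq P W hW hP)
  · intro x x' y z w h1 h2
    rw [h1, h2]
  · rintro ⟨x, y, z⟩ hτ
    obtain ⟨hx, hy, hz, pz, c1, c2, c3, w, pw, h1, h2, h3, h4, h5, h6⟩ := hT _ hτ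
    exact ⟨hx, hy, c1, c2, w, ⟨pz, pw, h3, hz⟩, ⟨c3, h5, h6⟩, h4, h2, h1⟩

lemma dot_of_smul {u w x : V} {d : ℤ} (hd : d ≠ 0) (h : u = d • w) (hx : x ⬝ᵥ u = 0) :
    w ⬝ᵥ x = 0 := by
  rw [h, dotProduct_smul, smul_eq_mul, dotProduct_comm] at hx
  exact (mul_eq_zero.1 hx).resolve_left hd

lemma exists_rel (x y z : V) (hz : z 0 ≠ 0) (hdet : x ⬝ᵥ (y ⨯₃ z) = 0) :
    ∃ w, Prim w ∧ w ⬝ᵥ x = 0 ∧ w ⬝ᵥ y = 0 ∧ w ⬝ᵥ z = 0 ∧
      (w 0 + w 1 + w 2 = 0 ∨ ∃ d : ℤ, d ≠ 0 ∧ (y ⨯₃ z = d • w ∨ x ⨯₃ z = d • w)) := by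
  by_cases h1 : y ⨯₃ z = 0
  · by_cases h2 : x ⨯₃ z = 0
    · have key : ∀ u v : V, v ⨯₃ z = 0 → z ⬝ᵥ u = 0 → v ⬝ᵥ u = 0 := by
        intro u v hv hu
        have a1 := congrFun hv 1
        have a2 := congrFun hv 2
        simp only [cross_apply, dotProduct, Fin.sum_univ_three] at a1 a2 hu ⊢
        simp at a1 a2
        apply mul_left_cancel₀ hz
        linear_combination v 0 * hu - u 1 * a2 + u 2 * a1
      obtain ⟨u, hu, hzu, hsum⟩ : ∃ u : V, u ≠ 0 ∧ z ⬝ᵥ u = 0 ∧ u 0 + u 1 + u 2 = 0 := by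
        by_cases h3 : z 0 = z 1
        · refine ⟨![1, -1, 0], by intro h; simpa using congrFun h 0, ?_, by simp⟩
          simp [dotProduct, Fin.sum_univ_three, h3]
        · refine ⟨![z 1 - z 2, z 2 - z 0, z 0 - z 1], ?_, ?_, by simp⟩
          · intro h
            have := congrFun h 2
            simp at this
            omega
          · simp [dotProduct, Fin.sum_univ_three]; ring
      obtain ⟨d, w, hd, pw, hw⟩ := exists_prim u hu
      refine ⟨w, pw, dot_of_smul hd hw (key u x h2 hzu), dot_of_smul hd hw (key u y h1 hzu),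
        dot_of_smul hd hw hzu, Or.inl ?_⟩
      rw [hw] at hsum
      simp only [Pi.smul_apply, smul_eq_mul] at hsum
      apply mul_left_cancel₀ hd
      linear_combination hsum
    · obtain ⟨d, w, hd, pw, hw⟩ := exists_prim _ h2
      refine ⟨w, pw, dot_of_smul hd hw (dot_self_cross x z), dot_of_smul hd hw ?_,
        dot_of_smul hd hw (dot_cross_self x z), Or.inr ⟨d, hd, Or.inr hw⟩⟩
      simp only [cross_apply, dotProduct, Fin.sum_univ_three] at hdet ⊢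
      simp at hdet ⊢
      linear_combination (-1 : ℤ) * hdet
  · obtain ⟨d, w, hd, pw, hw⟩ := exists_prim _ h1
    exact ⟨w, pw, dot_of_smul hd hw hdet, dot_of_smul hd hw (dot_self_cross y z),
      dot_of_smul hd hw (dot_cross_self y z), Or.inr ⟨d, hd, Or.inl hw⟩⟩

end Vale.Agent.P036
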